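import Vale.Agent.P151.Params

namespace Vale.Agent.P151
open Finset MeasureTheory ProbabilityTheory unitInterval
open scoped Classical ENNReal

noncomputable def cut {E : Type*} (K : Finset E) (ω : Set E) : Finset E := K.filter (fun e => e ∈ ω)

lemma mem_cut {E : Type*} {K : Finset E} {ω : Set E} {e : E} : e ∈ cut K ω ↔ e ∈ K ∧ e ∈ ω := by
  simp [cut]

lemma cut_eq_iff {E : Type*} {K s : Finset E} (hs : s ⊆ K) (ω : Set E) :
    cut K ω = s ↔ ∀ e ∈ K, (e ∈ ω ↔ e ∈ s) := by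
  rw [Finset.ext_iff]
  refine forall_congr' fun e => ?_
  rw [mem_cut]
  have := @hs e
  tauto

lemma meas_atom {E : Type*} {K s : Finset E} (hs : s ⊆ K) : MeasurableSet {ω : Set E | cut K ω = s} := by
  have : {ω : Set E | cut K ω = s} = ⋂ e ∈ K, {ω : Set E | e ∈ ω ↔ e ∈ s} := by
    ext ω; simp [cut_eq_iff hs]
  rw [this]
  refine Finset.measurableSet_biInter K fun e _ => ?_
  by_cases h : e ∈ s
  · simpa [h] using measurableSet_mem e
  · simpa [h] using measurableSet_notMem e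

lemma prob_atom {E : Type*} {u : Set E} {K s : Finset E} (hK : (K : Set E) ⊆ u) (hs : s ⊆ K) (p : I) :
    setBernoulli u p {ω : Set E | cut K ω = s} =
      ENNReal.ofReal ((∏ _e ∈ s, (p : ℝ)) * ∏ _e ∈ K \ s, (1 - (p : ℝ))) := by
  rw [setBernoulli_apply']
  have : (fun p : E → Prop => {i | p i}) ⁻¹' {ω : Set E | cut K ω = s} =
      Set.pi K (fun e => {P : Prop | P ↔ e ∈ s}) := by
    ext f; simp [cut_eq_iff hs]
  rw [this, Measure.infinitePi_pi _ (fun _ _ => MeasurableSet.of_discrete),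
    ← Finset.prod_sdiff hs, mul_comm, ENNReal.ofReal_mul (Finset.prod_nonneg fun _ _ => p.2.1),
    ENNReal.ofReal_prod_of_nonneg (fun _ _ => p.2.1),
    ENNReal.ofReal_prod_of_nonneg (fun _ _ => sub_nonneg.2 p.2.2)]
  congr 1
  · refine Finset.prod_congr rfl fun e he => ?_
    have h1 : e ∈ u := hK (hs he)
    have h3 : ENNReal.ofReal (p : ℝ) = toNNReal p := by
      rw [← coe_toNNReal p, ENNReal.ofReal_coe_nnreal]
    rw [h3]
    simp [he, h1]
  · refine Finset.prod_congr rfl fun e he => ?_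
    have h1 : e ∈ u := hK (mem_sdiff.1 he).1
    have h2 : e ∉ s := (mem_sdiff.1 he).2
    have h3 : ENNReal.ofReal (1 - (p : ℝ)) = toNNReal (σ p) := by
      rw [← coe_symm_eq, ← coe_toNNReal (σ p), ENNReal.ofReal_coe_nnreal]
    rw [h3]
    simp [h2, h1]

lemma cyl_eq {E : Type*} (K : Finset E) (A : Finset E → Prop) :
    {ω : Set E | A (cut K ω)} = ⋃ s ∈ K.powerset.filter A, {ω : Set E | cut K ω = s} := by
  ext ω
  simp only [Set.mem_ofPred_eq, Set.mem_iUnion, mem_filter, mem_powerset, exists_prop]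
  exact ⟨fun h => ⟨_, ⟨filter_subset _ _, h⟩, rfl⟩, fun ⟨s, hs, h⟩ => h ▸ hs.2⟩

lemma meas_cyl {E : Type*} (K : Finset E) (A : Finset E → Prop) :
    MeasurableSet {ω : Set E | A (cut K ω)} := by
  rw [cyl_eq]
  exact Finset.measurableSet_biUnion _ fun s hs => meas_atom (mem_powerset.1 (mem_filter.1 hs).1)

lemma prob_cyl {E : Type*} {u : Set E} {K : Finset E} (hK : (K : Set E) ⊆ u) (p : I)
    (A : Finset E → Prop) :
    setBernoulli u p {ω : Set E | A (cut K ω)} =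
      ENNReal.ofReal (Ex K (fun _ => p) (fun ω => ind (A ω))) := by
  rw [cyl_eq, measure_biUnion_finset]
  · rw [Finset.sum_congr rfl fun s hs => prob_atom hK (mem_powerset.1 (mem_filter.1 hs).1) p,
      ← ENNReal.ofReal_sum_of_nonneg fun _ _ => mul_nonneg (Finset.prod_nonneg fun _ _ => p.2.1)
        (Finset.prod_nonneg fun _ _ => sub_nonneg.2 p.2.2), Finset.sum_filter, Ex]
    congr 1
    refine Finset.sum_congr rfl fun s _ => ?_
    by_cases h : A s
    · rw [if_pos h, ind_pos h, mul_one]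
    · rw [if_neg h, ind_neg h, mul_zero]
  · intro s _ t _ hst
    exact Set.disjoint_left.2 fun ω h1 h2 => hst (Eq.trans (Eq.symm h1) h2)
  · exact fun s hs => meas_atom (mem_powerset.1 (mem_filter.1 hs).1)

lemma conn_of_reachable {V : Type*} {ω : Set (Sym2 V)} {x y : V}
    (h : (SimpleGraph.fromEdgeSet ω).Reachable x y) :
    ∃ ω0 : Finset (Sym2 V), (ω0 : Set (Sym2 V)) ⊆ ω ∧ Conn ω0 x y := by
  rw [SimpleGraph.reachable_iff_reflTransGen] at h
  induction h with
  | refl => exact ⟨∅, by simp, Conn.refl _ _⟩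
  | @tail a b _ h2 ih =>
    obtain ⟨ω0, h3, h4⟩ := ih
    refine ⟨insert s(a, b) ω0, ?_, (h4.mono (subset_insert _ _)).trans
      (Conn.edge (mem_insert_self _ _))⟩
    rw [coe_insert]
    exact Set.insert_subset ((SimpleGraph.fromEdgeSet_adj _).1 h2).1 h3

lemma reachable_of_conn {V : Type*} {ω : Set (Sym2 V)} {ω0 : Finset (Sym2 V)}
    (h0 : (ω0 : Set (Sym2 V)) ⊆ ω) {x y : V} (h : Conn ω0 x y) :
    (SimpleGraph.fromEdgeSet ω).Reachable x y := by
  induction h with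
  | refl => exact SimpleGraph.Reachable.refl _
  | @tail a b _ h2 ih =>
    by_cases hab : a = b
    · exact hab ▸ ih
    · exact ih.trans (SimpleGraph.Adj.reachable ((SimpleGraph.fromEdgeSet_adj _).2 ⟨h0 h2, hab⟩))

variable {d : ℕ}

lemma edgesIn_subset (S : Finset (Fin d → ℤ)) :
    (edgesIn S : Set (Sym2 (Fin d → ℤ))) ⊆ (lattice d).edgeSet :=
  fun _ he => (mem_filter.1 he).2

lemma Perc_of_pos (p : I) (h : 0 < perc (lattice d) p (InfCluster (Fin d → ℤ))) : Perc d p := by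
  have h1 : InfCluster (Fin d → ℤ) = ⋃ x : Fin d → ℤ,
      {ω | {y | (SimpleGraph.fromEdgeSet ω).Reachable x y}.Infinite} := by
    ext ω; simp [InfCluster]
  obtain ⟨x, hx⟩ : ∃ x : Fin d → ℤ, perc (lattice d) p
      {ω | {y | (SimpleGraph.fromEdgeSet ω).Reachable x y}.Infinite} ≠ 0 := by
    by_contra h2
    push Not at h2
    rw [h1, measure_iUnion_null h2] at h
    exact lt_irrefl _ h
  have hfin : perc (lattice d) p
      {ω | {y | (SimpleGraph.fromEdgeSet ω).Reachable x y}.Infinite} ≠ ∞ := by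
    unfold perc; exact measure_ne_top _ _
  refine ⟨_, ENNReal.toReal_pos hx hfin, fun n => ?_⟩
  refine le_trans ?_ (arm_shift p.2.1 p.2.2 x n)
  refine ENNReal.toReal_le_of_le_ofReal
    (Ex_nonneg (fun _ => ⟨p.2.1, p.2.2⟩) fun _ _ => ind_nonneg _) ?_
  rw [← prob_cyl (edgesIn_subset _) p]
  refine measure_mono_ae ?_
  filter_upwards [setBernoulli_ae_subset (u := (lattice d).edgeSet) (p := p)] with ω hω h2
  obtain ⟨y, hy, hy'⟩ := Set.Infinite.exists_notMem_finset h2 (box x n)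
  obtain ⟨ω0, h3, h4⟩ := conn_of_reachable hy
  obtain ⟨z, hz, h5⟩ := first_exit (fun a b hab => hω (h3 hab))
    (self_mem_box x (Int.natCast_nonneg n)) h4 (by
      rw [mem_box] at hy'
      push Not at hy'
      obtain ⟨i, hi⟩ := hy'
      refine ⟨i, ?_⟩
      rcases abs_cases (y i - x i) with h | h <;> omega)
  exact ⟨z, hz, h5.mono fun e he => mem_cut.2 ⟨(mem_res.1 he).2, h3 (mem_res.1 he).1⟩⟩

lemma pos_of_Perc (p : I) (h : Perc d p) : 0 < perc (lattice d) p (InfCluster (Fin d → ℤ)) := by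
  obtain ⟨c, hc, h⟩ := h
  set A : ℕ → Set (Set (Sym2 (Fin d → ℤ))) := fun n =>
    {ω | Arm d n (cut (edgesIn (box (0 : Fin d → ℤ) n)) ω)} with hA
  have hanti : Antitone A := by
    intro m n hmn ω hω
    obtain ⟨y, ⟨i, hi⟩, h1⟩ := hω
    obtain ⟨z, ⟨j, hj⟩, h2⟩ := first_exit (adj_of_subset (filter_subset _ _)) (c := 0) (n := m)
      (self_mem_box _ (Int.natCast_nonneg m)) h1 ⟨i, by simp [hi, hmn]⟩
    exact ⟨z, ⟨j, by simpa using hj⟩, h2.mono fun e he =>
      mem_cut.2 ⟨(mem_res.1 he).2, (mem_cut.1 (mem_res.1 he).1).2⟩⟩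
  have h1 : perc (lattice d) p (⋂ n, A n) = ⨅ n, perc (lattice d) p (A n) :=
    hanti.measure_iInter (fun n => (meas_cyl _ _).nullMeasurableSet)
      ⟨0, by unfold perc; exact measure_ne_top _ _⟩
  have h2 : ENNReal.ofReal c ≤ perc (lattice d) p (⋂ n, A n) := by
    rw [h1]
    refine le_iInf fun n => ?_
    unfold perc
    rw [hA, prob_cyl (edgesIn_subset _) p]
    exact ENNReal.ofReal_le_ofReal (h n)
  refine (ENNReal.ofReal_pos.2 hc).trans_le (h2.trans (measure_mono fun ω hω => ⟨0, ?_⟩))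
  intro hfin
  obtain ⟨M, hM⟩ := (hfin.image (fun y => ∑ i, |y i|)).bddAbove
  obtain ⟨y, ⟨i, hi⟩, h3⟩ := Set.mem_iInter.1 hω (M.toNat + 1)
  have h4 := hM ⟨y, reachable_of_conn (fun e he => (mem_cut.1 he).2) h3, rfl⟩
  have h5 : |y i| ≤ ∑ i, |y i| :=
    Finset.single_le_sum (f := fun i => |y i|) (fun _ _ => abs_nonneg _) (mem_univ i)
  simp only at h4
  omega

theorem open_left (hd : 2 ≤ d) (p : I) (h : 0 < perc (lattice d) p (InfCluster (Fin d → ℤ))) :
    ∃ q : I, q < p ∧ 0 < perc (lattice d) q (InfCluster (Fin d → ℤ)) := by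
  obtain ⟨t, h1, h2, h3⟩ := finite_main hd p.2.1 p.2.2 (Perc_of_pos p h)
  exact ⟨⟨t, h1.le, h2.le.trans p.2.2⟩, h2, pos_of_Perc _ h3⟩

theorem main (hd : 2 ≤ d) :
    pc (lattice d) < 1 ∧ perc (lattice d) (pc (lattice d)) (InfCluster (Fin d → ℤ)) = 0 := by
  constructor
  · obtain ⟨t, h1, h2, h3⟩ := near_one hd
    exact lt_of_le_of_lt (sInf_le (a := ⟨t, h1.le, h2.le⟩) (pos_of_Perc _ h3)) h2
  · by_contra h
    obtain ⟨q, h1, h2⟩ := open_left hd _ (pos_iff_ne_zero.2 h)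
    exact absurd (sInf_le (a := q) h2) (not_le.2 h1)

end Vale.Agent.P151
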