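import Vale.Agent.P151.Conn

namespace Vale.Agent.P151
open Finset
open scoped Classical

variable {V : Type*}

def AddF (Λ : Set V → ℝ) : Prop := ∀ A B, Disjoint A B → Λ (A ∪ B) = Λ A + Λ B

lemma AddF.empty {Λ : Set V → ℝ} (h : AddF Λ) : Λ ∅ = 0 := by
  have := h ∅ ∅ (by simp)
  simp at this; exact this

def Con (K : Finset (Sym2 V)) (w : Sym2 V → ℝ) (Λ : Set V → ℝ) : List V → Set V → Prop
  | [], _ => True
  | d :: D, Z => Ex K w (fun ω => Λ (C ω d) * ind (d ∉ Cl ω Z)) = 0 ∧ Con K w Λ D (insert d Z)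

section
variable (K : Finset (Sym2 V)) (w : Sym2 V → ℝ)

noncomputable def gbar (g : Set V → ℝ) (x : V) (R : Set V) : ℝ :=
  Ex K w (fun ω => g (C (del R ω) x))

noncomputable def hfun (g : Set V → ℝ) (x : V) (Y : Set V) (ω : Finset (Sym2 V)) : ℝ :=
  (g (C ω x) - gbar K w g x (Cl ω Y)) * ind (x ∉ Cl ω Y)

noncomputable def ufun (g : Set V → ℝ) (x : V) (Y : Set V) (S : Set V) : ℝ :=
  Ex K w (fun ω => hfun K w g x Y (del S ω))

noncomputable def Tg (g : Set V → ℝ) (x : V) (Y : Set V) (S : Set V) : ℝ :=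
  Ex K w (fun ω => gbar K w g x (Cl (del S ω) Y))

variable {K w}

lemma gbar_anti (hw : W01 w) {g : Set V → ℝ} (hg : Monotone g) (x : V) :
    Antitone (gbar K w g x) := fun _ _ h =>
  Ex_mono hw fun _ _ => hg (C_mono (del_mono h subset_rfl) x)

lemma Tg_mono (hw : W01 w) {g : Set V → ℝ} (hg : Monotone g) (x : V) (Y : Set V) :
    Monotone (Tg K w g x Y) := fun _ _ h =>
  Ex_mono hw fun _ _ => gbar_anti hw hg x (Cl_mono (del_mono h subset_rfl) subset_rfl)

lemma ufun_eq (g : Set V → ℝ) (x : V) (Y S : Set V) :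
    ufun K w g x Y S = Ex K w (fun ω => (g (C (del S ω) x) - g (C (del (Cl (del S ω) Y) ω) x)) *
      ind (x ∉ Cl (del S ω) Y)) := by
  unfold ufun hfun
  simp only [sub_mul]
  rw [Ex_sub, Ex_sub]
  congr 1
  rw [Ex_Cl_del K w Y S (fun R η => g (C η x) * ind (x ∉ R))]
  simp only [Ex_mul_right, gbar]

lemma ufun_anti (hw : W01 w) {g : Set V → ℝ} (hg : Monotone g) (x : V) (Y : Set V) :
    Antitone (ufun K w g x Y) := by
  intro S S' h
  rw [ufun_eq, ufun_eq]
  refine Ex_mono hw fun ω _ => ?_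
  have hR : Cl (del S' ω) Y ⊆ Cl (del S ω) Y := Cl_mono (del_mono h subset_rfl) subset_rfl
  by_cases h1 : x ∈ Cl (del S ω) Y
  · rw [ind_neg (not_not.2 h1), mul_zero]
    by_cases h2 : x ∈ Cl (del S' ω) Y
    · rw [ind_neg (not_not.2 h2), mul_zero]
    · rw [ind_pos h2, mul_one, sub_nonpos]
      apply hg
      rw [← C_del (disjoint_C_Cl h2), del_comm]
      exact C_mono (del_subset _ _) x
  · have h2 : x ∉ Cl (del S' ω) Y := fun h3 => h1 (hR h3)
    rw [ind_pos h1, ind_pos h2, mul_one, mul_one]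
    have h3 := hg (C_mono (del_mono h (subset_refl ω)) x)
    have h4 := hg (C_mono (del_mono hR (subset_refl ω)) x)
    linarith

lemma hfun_cond (g : Set V → ℝ) {x : V} {Y Z : Set V} (hx : x ∈ Z) (hY : Y ⊆ Z) (d : V)
    (φ : Set V → ℝ) :
    Ex K w (fun ω => hfun K w g x Y ω * (φ (C ω d) * ind (d ∉ Cl ω Z))) =
      Ex K w (fun ω => ufun K w g x Y (C ω d) * (φ (C ω d) * ind (d ∉ Cl ω Z))) := by
  have := Ex_C K w d (fun S η => hfun K w g x Y η * (φ S * ind (Disjoint S Z)))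
  simp only [Ex_mul_right] at this
  simp only [not_mem_Cl_iff]
  unfold ufun
  rw [← this]
  refine Ex_congr fun ω _ => ?_
  by_cases h : Disjoint (C ω d) Z
  · have h1 : Disjoint (Cl ω Z) (C ω d) := (disjoint_C_Cl (not_mem_Cl_iff.2 h)).symm
    have h2 : Cl (del (C ω d) ω) Y = Cl ω Y :=
      Cl_del (h1.mono_left (Cl_mono subset_rfl hY))
    have h3 : C (del (C ω d) ω) x = C ω x := by
      apply C_del
      rw [C_eq]
      exact h1.mono_left (Cl_mono subset_rfl (Set.singleton_subset_iff.2 hx))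
    simp only [hfun, h2, h3]
  · simp only [ind_neg h, mul_zero]

lemma key_harris (hw : W01 w) {Λ : Set V → ℝ} (hΛ : AddF Λ) {g : Set V → ℝ} (hg : Monotone g)
    (x : V) (Y D : Set V) (hpos : ∀ S, Disjoint S (insert x Y ∪ D) → 0 ≤ Λ S) :
    0 ≤ Ex K w (fun ω => hfun K w g x Y ω * Λ (Cl ω (insert x Y ∪ D) \ Cl ω Y)) := by
  have := Ex_Cl K w Y (fun R η => ((g (C η x) - gbar K w g x R) * Λ (Cl η (insert x D) \ R)) *
    ind (x ∉ R))
  have h1 : Ex K w (fun ω => hfun K w g x Y ω * Λ (Cl ω (insert x Y ∪ D) \ Cl ω Y)) =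
      Ex K w (fun ω => ((g (C (del (Cl ω Y) ω) x) - gbar K w g x (Cl ω Y)) *
        Λ (Cl (del (Cl ω Y) ω) (insert x D) \ Cl ω Y)) * ind (x ∉ Cl ω Y)) := by
    refine Ex_congr fun ω _ => ?_
    by_cases h : x ∈ Cl ω Y
    · simp only [hfun, ind_neg (not_not.2 h), mul_zero, zero_mul]
    · have h2 : Cl (del (Cl ω Y) ω) (insert x D) \ Cl ω Y = Cl ω (insert x Y ∪ D) \ Cl ω Y := by
        ext v
        constructor
        · rintro ⟨h3, h4⟩
          refine ⟨Cl_mono (del_subset _ _) ?_ h3, h4⟩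
          rintro a (ha | ha)
          · exact Or.inl (Or.inl ha)
          · exact Or.inr ha
        · rintro ⟨⟨z, hz, h3⟩, h4⟩
          refine ⟨⟨z, ?_, ?_⟩, h4⟩
          · rcases hz with (hz | hz) | hz
            · exact Or.inl hz
            · exact absurd ⟨z, hz, h3⟩ h4
            · exact Or.inr hz
          · have h5 : z ∉ Cl ω Y := fun h5 => h4 (Cl_step h5 h3)
            have h6 := C_del (disjoint_C_Cl h5)
            have h7 : v ∈ C ω z := h3
            rw [← h6] at h7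
            exact h7
      rw [h2, C_del (disjoint_C_Cl h), hfun]; ring
  rw [h1, this]
  refine Ex_nonneg hw fun ω _ => ?_
  rw [Ex_mul_right]
  refine mul_nonneg ?_ (ind_nonneg _)
  have hR : Y ⊆ Cl ω Y := subset_Cl _ _
  generalize Cl ω Y = R at hR
  have hΨ : Monotone (fun ω' : Finset (Sym2 V) => Λ (Cl (del R ω') (insert x D) \ R)) := by
    intro a b hab
    have h2 : Cl (del R a) (insert x D) \ R ⊆ Cl (del R b) (insert x D) \ R :=
      Set.sdiff_subset_sdiff_left (Cl_mono (del_mono subset_rfl hab) subset_rfl)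
    have h3 := hΛ _ _ (Set.disjoint_sdiff_right (s := Cl (del R a) (insert x D) \ R)
      (t := Cl (del R b) (insert x D) \ R))
    rw [Set.union_sdiff_cancel h2] at h3
    have h4 := hpos ((Cl (del R b) (insert x D) \ R) \ (Cl (del R a) (insert x D) \ R)) (by
      rw [Set.disjoint_left]
      rintro v ⟨⟨h5, h6⟩, h7⟩ h8
      refine h7 ⟨subset_Cl _ _ ?_, h6⟩
      rcases h8 with (h8 | h8) | h8
      · exact Or.inl h8
      · exact absurd (hR h8) h6
      · exact Or.inr h8)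
    simp only
    linarith
  have hG : Monotone (fun ω' : Finset (Sym2 V) => g (C (del R ω') x)) :=
    fun a b hab => hg (C_mono (del_mono subset_rfl hab) x)
  have h5 := harris (K := K) hw hG hΨ
  simp only [sub_mul]
  rw [Ex_sub, Ex_mul_left]
  unfold gbar
  linarith

lemma B_sub_T (Λ : Set V → ℝ) (g : Set V → ℝ) (x : V) (Y : Set V) :
    Ex K w (fun ω => g (C ω x) * (Λ (C ω x) * ind (x ∉ Cl ω Y))) -
      Ex K w (fun ω => Tg K w g x Y (C ω x) * (Λ (C ω x) * ind (x ∉ Cl ω Y))) =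
      Ex K w (fun ω => hfun K w g x Y ω * Λ (C ω x)) := by
  have := Ex_C K w x (fun S η => gbar K w g x (Cl η Y) * (Λ S * ind (Disjoint S Y)))
  simp only [Ex_mul_right] at this
  have h1 : Ex K w (fun ω => Tg K w g x Y (C ω x) * (Λ (C ω x) * ind (x ∉ Cl ω Y))) =
      Ex K w (fun ω => gbar K w g x (Cl ω Y) * (Λ (C ω x) * ind (x ∉ Cl ω Y))) := by
    simp only [not_mem_Cl_iff]
    unfold Tg
    rw [← this]
    refine Ex_congr fun ω _ => ?_
    by_cases h : Disjoint (C ω x) Y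
    · rw [Cl_del (disjoint_C_Cl (not_mem_Cl_iff.2 h)).symm]
    · simp only [ind_neg h, mul_zero]
  rw [h1, ← Ex_sub]
  refine Ex_congr fun ω _ => ?_
  rw [hfun]; ring

lemma Tg_osc (hw : W01 w) {g : Set V → ℝ} (hg : Monotone g) (x : V) (Y : Set V) :
    Tg K w g x Y Set.univ - Tg K w g x Y ∅ ≤
      (1 - ∏ e ∈ K, (1 - w e)) * (g Set.univ - g ∅) := by
  have hb : ∀ R, g ∅ ≤ gbar K w g x R ∧ gbar K w g x R ≤ g Set.univ := fun R =>
    ⟨Ex_ge_const hw fun _ _ => hg (Set.empty_subset _),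
      Ex_le_const hw fun _ _ => hg (Set.subset_univ _)⟩
  have := Ex_ge_empty (K := K) hw (f := fun ω => (g Set.univ - g ∅) -
    (gbar K w g x (Cl (del Set.univ ω) Y) - gbar K w g x (Cl (del ∅ ω) Y))) (fun ω _ => by
      have h1 := (hb (Cl (del Set.univ ω) Y)).2
      have h2 := (hb (Cl (del ∅ ω) Y)).1
      linarith)
  rw [Ex_sub, Ex_sub, Ex_const, Ex_sub, del_empty, del_empty] at this
  unfold Tg
  simp only [Ex_const] at this
  linarith

def W01' (w : Sym2 V → ℝ) : Prop := ∀ e, 0 ≤ w e ∧ w e < 1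

lemma W01'.w01 {w : Sym2 V → ℝ} (h : W01' w) : W01 w := fun e => ⟨(h e).1, (h e).2.le⟩

lemma W01'.kappa {w : Sym2 V → ℝ} (h : W01' w) (K : Finset (Sym2 V)) :
    0 < ∏ e ∈ K, (1 - w e) := Finset.prod_pos fun e _ => sub_pos.2 (h e).2

lemma gibbs (hw : W01' w) (Λ : Set V → ℝ) (x : V) (Y : Set V)
    (h0 : Ex K w (fun ω => Λ (C ω x) * ind (x ∉ Cl ω Y)) = 0)
    (hkey : ∀ g : Set V → ℝ, Monotone g → 0 ≤ Ex K w (fun ω => hfun K w g x Y ω * Λ (C ω x)))
    {g : Set V → ℝ} (hg : Monotone g) :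
    0 ≤ Ex K w (fun ω => g (C ω x) * (Λ (C ω x) * ind (x ∉ Cl ω Y))) := by
  set κ := ∏ e ∈ K, (1 - w e) with hκ
  have hκ0 : 0 < κ := hw.kappa K
  have hκ1 : κ ≤ 1 := Finset.prod_le_one (fun e _ => sub_nonneg.2 (hw e).2.le)
    (fun e _ => by linarith [(hw e).1])
  set M := Ex K w (fun ω => |Λ (C ω x) * ind (x ∉ Cl ω Y)|) with hM
  have hM0 : 0 ≤ M := Ex_nonneg hw.w01 fun _ _ => abs_nonneg _
  have main : ∀ n : ℕ, ∀ g : Set V → ℝ, Monotone g →
      -(M * (g Set.univ - g ∅) * (1 - κ) ^ n) ≤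
        Ex K w (fun ω => g (C ω x) * (Λ (C ω x) * ind (x ∉ Cl ω Y))) := by
    intro n
    induction n with
    | zero =>
      intro g hg
      have h1 : Ex K w (fun ω => g (C ω x) * (Λ (C ω x) * ind (x ∉ Cl ω Y))) =
          Ex K w (fun ω => (g (C ω x) - g ∅) * (Λ (C ω x) * ind (x ∉ Cl ω Y))) := by
        simp only [sub_mul]
        rw [Ex_sub, Ex_mul_left, h0]; ring
      rw [h1, pow_zero, mul_one, hM, ← Ex_mul_right, ← Ex_neg]
      refine Ex_mono hw.w01 fun ω _ => ?_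
      have h2 : g ∅ ≤ g (C ω x) := hg (Set.empty_subset _)
      have h3 : g (C ω x) ≤ g Set.univ := hg (Set.subset_univ _)
      have h4 := neg_abs_le (Λ (C ω x) * ind (x ∉ Cl ω Y))
      have h5 := abs_nonneg (Λ (C ω x) * ind (x ∉ Cl ω Y))
      nlinarith [mul_le_mul_of_nonneg_left h4 (sub_nonneg.2 h2),
        mul_nonneg h5 (sub_nonneg.2 h3)]
    | succ n ih =>
      intro g hg
      have h1 := ih _ (Tg_mono (K := K) hw.w01 hg x Y)
      have h2 := B_sub_T (K := K) (w := w) Λ g x Y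
      have h3 := hkey g hg
      have h4 := Tg_osc (K := K) hw.w01 hg x Y
      have h5 : 0 ≤ M * (1 - κ) ^ n := mul_nonneg hM0 (pow_nonneg (by linarith) n)
      have h6 := mul_le_mul_of_nonneg_left h4 h5
      rw [pow_succ]
      nlinarith
  have hlim : Filter.Tendsto (fun n : ℕ => -(M * (g Set.univ - g ∅) * (1 - κ) ^ n))
      Filter.atTop (nhds (-(M * (g Set.univ - g ∅) * 0))) :=
    ((tendsto_pow_atTop_nhds_zero_of_lt_one (by linarith) (by linarith)).const_mul _).neg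
  rw [mul_zero, neg_zero] at hlim
  exact le_of_tendsto' hlim fun n => main n g hg

lemma Cl_diff_split {Λ : Set V → ℝ} (hΛ : AddF Λ) (ω : Finset (Sym2 V)) (d : V) (Z D : Set V) :
    Λ (Cl ω (insert d Z ∪ D) \ Cl ω Z) =
      Λ (C ω d) * ind (d ∉ Cl ω Z) + Λ (Cl ω (insert d Z ∪ D) \ Cl ω (insert d Z)) := by
  by_cases h : d ∈ Cl ω Z
  · have : Cl ω (insert d Z) = Cl ω Z := by
      ext v
      rw [mem_Cl_insert]
      exact ⟨fun h1 => h1.elim (fun h2 => Cl_step h h2) id, Or.inr⟩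
    rw [ind_neg (not_not.2 h), this]; ring
  · rw [ind_pos h, mul_one, ← hΛ]
    · congr 1
      ext v
      simp only [Set.mem_sdiff, Set.mem_union, mem_Cl_insert]
      constructor
      · rintro ⟨h1, h2⟩
        by_cases h3 : v ∈ C ω d
        · exact Or.inl h3
        · exact Or.inr ⟨h1, fun h4 => h4.elim h3 h2⟩
      · rintro (h1 | ⟨h1, h2⟩)
        · exact ⟨⟨d, Or.inl (Or.inl rfl), h1⟩, Set.disjoint_left.1 (disjoint_C_Cl h) h1⟩
        · exact ⟨h1, fun h3 => h2 (Or.inr h3)⟩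
    · rw [Set.disjoint_left]
      rintro v h1 ⟨_, h2⟩
      exact h2 (mem_Cl_insert.2 (Or.inl h1))

lemma csh_of_tail (hw : W01' w) {Λ : Set V → ℝ} (hΛ : AddF Λ) (D : List V)
    (hb : ∀ (x : V) (Y Z : Set V) (g : Set V → ℝ), x ∈ Z → Y ⊆ Z → Monotone g →
      (∀ S, Disjoint S (Z ∪ {d | d ∈ D}) → 0 ≤ Λ S) → Con K w Λ D Z →
      Ex K w (fun ω => hfun K w g x Y ω * Λ (Cl ω (Z ∪ {d | d ∈ D}) \ Cl ω Z)) ≤ 0)
    (x : V) (Y : Set V) (hpos : ∀ S, Disjoint S (insert x Y ∪ {d | d ∈ D}) → 0 ≤ Λ S)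
    (hcon : Con K w Λ (x :: D) Y) {g : Set V → ℝ} (hg : Monotone g) :
    0 ≤ Ex K w (fun ω => g (C ω x) * (Λ (C ω x) * ind (x ∉ Cl ω Y))) := by
  refine gibbs hw Λ x Y hcon.1 (fun g hg => ?_) hg
  have h1 := key_harris (K := K) hw.w01 hΛ hg x Y _ hpos
  have h2 := hb x Y (insert x Y) g (Set.mem_insert _ _) (Set.subset_insert _ _) hg hpos hcon.2
  simp only [Cl_diff_split hΛ _ x Y, mul_add] at h1
  rw [Ex_add] at h1
  have h3 : Ex K w (fun ω => hfun K w g x Y ω * (Λ (C ω x) * ind (x ∉ Cl ω Y))) =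
      Ex K w (fun ω => hfun K w g x Y ω * Λ (C ω x)) := by
    refine Ex_congr fun ω _ => ?_
    by_cases h : x ∈ Cl ω Y
    · simp only [hfun, ind_neg (not_not.2 h), mul_zero, zero_mul]
    · rw [ind_pos h, mul_one]
  linarith

lemma tail_nonpos (hw : W01' w) {Λ : Set V → ℝ} (hΛ : AddF Λ) (D : List V) :
    ∀ (x : V) (Y Z : Set V) (g : Set V → ℝ), x ∈ Z → Y ⊆ Z → Monotone g →
      (∀ S, Disjoint S (Z ∪ {d | d ∈ D}) → 0 ≤ Λ S) → Con K w Λ D Z →
      Ex K w (fun ω => hfun K w g x Y ω * Λ (Cl ω (Z ∪ {d | d ∈ D}) \ Cl ω Z)) ≤ 0 := by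
  induction D with
  | nil =>
    intro x Y Z g _ _ _ _ _
    simp [hΛ.empty, Ex_const]
  | cons d D ih =>
    intro x Y Z g hx hY hg hpos hcon
    have hU : Z ∪ {a | a ∈ d :: D} = insert d Z ∪ {a | a ∈ D} := by
      ext v; simp only [List.mem_cons, Set.mem_union, Set.mem_ofPred_eq, Set.mem_insert_iff]; tauto
    rw [hU] at hpos ⊢
    simp only [Cl_diff_split hΛ _ d Z, mul_add]
    rw [Ex_add, hfun_cond g hx hY d Λ]
    have h1 := ih x Y (insert d Z) g (Set.mem_insert_of_mem _ hx)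
      (hY.trans (Set.subset_insert _ _)) hg hpos hcon.2
    have h2 := csh_of_tail hw hΛ D ih d Z hpos hcon (g := fun S => - ufun K w g x Y S)
      (fun a b hab => neg_le_neg (ufun_anti hw.w01 hg x Y hab))
    simp only [neg_mul] at h2
    rw [Ex_neg] at h2
    linarith

/-- the conditional correlation inequality with decoys -/
theorem csh (hw : W01' w) {Λ : Set V → ℝ} (hΛ : AddF Λ) (D : List V)
    (x : V) (Y : Set V) (hpos : ∀ S, Disjoint S (insert x Y ∪ {d | d ∈ D}) → 0 ≤ Λ S)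
    (hcon : Con K w Λ (x :: D) Y) {g : Set V → ℝ} (hg : Monotone g) :
    0 ≤ Ex K w (fun ω => g (C ω x) * (Λ (C ω x) * ind (x ∉ Cl ω Y))) :=
  csh_of_tail hw hΛ D (tail_nonpos hw hΛ D) x Y hpos hcon hg

end
end Vale.Agent.P151
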