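import Vale.Agent.P151.Step

namespace Vale.Agent.P151
open Finset
open scoped Classical

variable {d : ℕ}

def sh (n : ℤ) (k : ℕ) : ℤ := (min k 10 : ℕ) * n

def cen (b : Fin d → ℤ) (a : Fin d) (n : ℤ) (k : ℕ) (j : Fin d) : ℤ :=
  b j + (if j = a then sh n k else 0)

def rad (n R : ℤ) (k : ℕ) (j : Fin d) : ℤ := (if j.val + 10 < k then n else 2 * n) + k * R

def chainBox (b : Fin d → ℤ) (a : Fin d) (n R : ℤ) (k : ℕ) : Set (Fin d → ℤ) :=
  {x | ∀ i, cen b a n k i - rad n R k i ≤ x i ∧ x i ≤ cen b a n k i + rad n R k i}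

def tube (b : Fin d → ℤ) (a : Fin d) (n s : ℤ) (x : Fin d → ℤ) : Prop :=
  ∀ i, b i - s < x i ∧ x i ≤ b i + 4 * n + (if i = a then 10 * n else 0)

lemma sh_bound {n : ℤ} (hn : 0 ≤ n) (k : ℕ) : 0 ≤ sh n k ∧ sh n k ≤ 10 * n := by
  unfold sh
  have h1 : ((min k 10 : ℕ) : ℤ) ≤ 10 := by exact_mod_cast min_le_right k 10
  exact ⟨mul_nonneg (Int.natCast_nonneg _) hn, mul_le_mul_of_nonneg_right h1 hn⟩

lemma sh_lt (n : ℤ) {k : ℕ} (hk : k < 10) : sh n (k + 1) = sh n k + n := by
  unfold sh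
  rw [min_eq_left hk.le, min_eq_left (by omega)]; push_cast; ring

lemma sh_ge (n : ℤ) {k : ℕ} (hk : 10 ≤ k) : sh n k = 10 * n := by
  unfold sh
  rw [min_eq_right hk]; norm_num

lemma face_subset (b : Fin d → ℤ) (a : Fin d) {n R : ℤ} (hn : 0 ≤ n) (hR : 0 ≤ R) {k : ℕ}
    (hk : k < 10 + d) (c : Fin d → ℤ)
    (hc : ∀ i, cen b a n k i - rad n R k i - R ≤ c i ∧ c i ≤ cen b a n k i + rad n R k i + R) :
    ∃ i σ, face c n i σ ⊆ chainBox b a n R (k + 1) := by
  have hkR : 0 ≤ (k : ℤ) * R := mul_nonneg (Int.natCast_nonneg _) hR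
  have hk1 : ((k + 1 : ℕ) : ℤ) * R = k * R + R := by push_cast; ring
  by_cases h : k < 10
  · refine ⟨a, fun j => decide (j = a ∨ c j ≤ cen b a n k j), fun y hy j => ?_⟩
    have h1 := hy.1
    have h2 := hy.2 j
    have h3 := hc j
    simp only [cen, rad, sgn, hk1, sh_lt n h, decide_eq_true_eq, true_or, if_true] at h1 h2 h3 ⊢
    rw [if_neg (by omega : ¬ j.val + 10 < k)] at h3
    rw [if_neg (by omega : ¬ j.val + 10 < k + 1)]
    by_cases hj : j = a
    · subst hj
      simp only [if_true] at h3 ⊢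
      omega
    · simp only [hj, if_false, false_or, decide_eq_true_eq] at h2 h3 ⊢
      split_ifs at h2 <;> omega
  · refine ⟨⟨k - 10, by omega⟩, fun j => decide (c j ≤ cen b a n k j), fun y hy j => ?_⟩
    have h1 := hy.1
    have h2 := hy.2 j
    have h3 := hc j
    have h4 : cen b a n (k + 1) j = cen b a n k j := by
      simp only [cen, sh_ge n (by omega : 10 ≤ k), sh_ge n (by omega : 10 ≤ k + 1)]
    rw [h4]
    simp only [rad, sgn, hk1, decide_eq_true_eq] at h1 h2 h3 ⊢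
    by_cases hj : j = ⟨k - 10, by omega⟩
    · rw [← hj] at h1
      have h5 : j.val = k - 10 := by rw [hj]
      rw [if_neg (by omega : ¬ j.val + 10 < k)] at h3
      rw [if_pos (by omega : j.val + 10 < k + 1)]
      split_ifs at h1 <;> omega
    · have h5 : j.val ≠ k - 10 := fun h5 => hj (Fin.ext h5)
      by_cases h6 : j.val + 10 < k
      · rw [if_pos h6] at h3
        rw [if_pos (by omega : j.val + 10 < k + 1)]
        split_ifs at h2 <;> omega
      · rw [if_neg h6] at h3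
        rw [if_neg (by omega : ¬ j.val + 10 < k + 1)]
        split_ifs at h2 <;> omega

lemma chain {K : Finset (Sym2 (Fin d → ℤ))} {w : Sym2 (Fin d → ℤ) → ℝ} (hw : W01 w)
    (hK : ∀ a b, s(a, b) ∈ K → (lattice d).Adj a b) {p η γ : ℝ} {m n R : ℤ} {J k : ℕ}
    (hm : 0 ≤ m) (hR : R = (2 * m + 1) * J + m) (hn : (11 + d) * R + 2 * m < n) (hJ : 0 < J)
    (hγ : 0 < γ) (hp0 : 0 ≤ p) (hp1 : p < 1) (hη : 0 ≤ η) (hF : Fresh d p m n η)
    (b o : Fin d → ℤ) (a : Fin d)
    (hU : ∀ x y, (lattice d).Adj x y → tube b a n (4 * n) x → tube b a n (4 * n) y →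
      s(x, y) ∈ K ∧ p ≤ w s(x, y))
    (hwp : ∀ x y, s(x, y) ∈ K → tube b a n (3 * n - m) x → tube b a n (3 * n - m) y →
      w s(x, y) = p)
    (ho : ¬ tube b a n (3 * n - m) o) :
    Ex K w (fun ω => ind (o ∈ Cl ω (box b (2 * n)) ∧
      o ∉ Cl ω (box (fun j => b j + if j = a then 10 * n else 0) (2 * n)))) ≤
      (10 + d) * Phi d p η γ m J k := by
  have hR0 : 0 ≤ R := by rw [hR]; positivity
  have hdR : 0 ≤ (d : ℤ) * R := mul_nonneg (Int.natCast_nonneg _) hR0
  have hn0 : 0 ≤ n := by nlinarith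
  have hmn : m ≤ n := by nlinarith
  have htube : ∀ t < 10 + d, ∀ s u : ℤ, 0 ≤ u → u ≤ n → 2 * n + u + (11 + d) * R < s →
      ∀ x : Fin d → ℤ, (∀ i, cen b a n t i - rad n R t i - R - u ≤ x i ∧
        x i ≤ cen b a n t i + rad n R t i + R + u) → tube b a n s x := by
    intro t ht s u hu0 hu hs x hx i
    have h1 := hx i
    have h2 := sh_bound hn0 t
    have h3 : (t : ℤ) * R ≤ (10 + d) * R :=
      mul_le_mul_of_nonneg_right (by exact_mod_cast ht.le) hR0
    have h4 : (11 + d) * R = (10 + d) * R + R := by ring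
    simp only [cen, rad] at h1
    split_ifs at h1 ⊢ <;> omega
  have main : ∀ t ≤ 10 + d, Ex K w (fun ω => ind (o ∈ Cl ω (chainBox b a n R 0) ∧
      o ∉ Cl ω (chainBox b a n R t))) ≤ t * Phi d p η γ m J k := by
    intro t
    induction t with
    | zero =>
      intro _
      rw [Nat.cast_zero, zero_mul]
      exact Ex_le_const hw fun ω _ => (ind_neg fun h => h.2 h.1).le
    | succ t ih =>
      intro ht
      have h1 := step (k := k) hw hK hm hmn hR hJ hγ hp0 hp1 hη hF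
        (fun i => cen b a n t i - rad n R t i) (fun i => cen b a n t i + rad n R t i) o
        (chainBox b a n R (t + 1))
        (fun x y hxy hx hy => hU x y hxy (htube t ht _ n hn0 le_rfl (by omega) x hx)
          (htube t ht _ n hn0 le_rfl (by omega) y hy))
        (fun x y hxy hx hy => hwp x y hxy (htube t ht _ m hm hmn (by omega) x hx)
          (htube t ht _ m hm hmn (by omega) y hy))
        (fun h => ho (htube t ht _ m hm hmn (by omega) o h))
        (fun c hc => face_subset b a hn0 hR0 ht c hc)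
      have h2 := add_le_add (ih (by omega)) h1
      rw [← Ex_add] at h2
      push_cast
      rw [add_mul, one_mul]
      refine le_trans (Ex_mono hw fun ω _ => ?_) h2
      by_cases h3 : o ∈ Cl ω (chainBox b a n R 0) ∧ o ∉ Cl ω (chainBox b a n R (t + 1))
      swap
      · rw [ind_neg h3]; exact add_nonneg (ind_nonneg _) (ind_nonneg _)
      rw [ind_pos h3]
      by_cases h4 : o ∈ Cl ω (chainBox b a n R t)
      · exact le_add_of_nonneg_of_le (ind_nonneg _) (ind_pos ⟨h4, h3.2⟩).ge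
      · rw [ind_pos (P := _ ∧ _) ⟨h3.1, h4⟩]
        exact le_add_of_nonneg_right (ind_nonneg _)
  have h1 := main (10 + d) le_rfl
  push_cast at h1
  refine le_trans (Ex_mono hw fun ω _ => ind_mono fun h => ⟨Cl_mono subset_rfl ?_ h.1,
    fun h2 => h.2 (Cl_mono subset_rfl ?_ h2)⟩) h1
  · intro x hx i
    have := mem_box.1 hx i
    simp only [cen, rad, sh, Nat.cast_zero, zero_mul, Nat.zero_min, ite_self, add_zero,
      Nat.not_lt_zero, if_false]
    omega
  · intro x hx
    rw [mem_coe, mem_box]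
    intro i
    have h2 := hx i
    have h4 : (11 + d) * R = (10 + d) * R + R := by ring
    simp only [cen, rad, sh_ge n (Nat.le_add_right 10 d),
      if_pos (by omega : i.val + 10 < 10 + d)] at h2
    push_cast at h2
    omega

def ChainHyp (d : ℕ) (p : ℝ) (m n : ℤ) (ε : ℝ) : Prop :=
  ∀ (K : Finset (Sym2 (Fin d → ℤ))) (w : Sym2 (Fin d → ℤ) → ℝ), W01 w →
    (∀ a b, s(a, b) ∈ K → (lattice d).Adj a b) → ∀ (b o : Fin d → ℤ) (a : Fin d),
    (∀ x y, (lattice d).Adj x y → tube b a n (4 * n) x → tube b a n (4 * n) y →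
      s(x, y) ∈ K ∧ p ≤ w s(x, y)) →
    (∀ x y, s(x, y) ∈ K → tube b a n (3 * n - m) x → tube b a n (3 * n - m) y →
      w s(x, y) = p) → ¬ tube b a n (3 * n - m) o →
    Ex K w (fun ω => ind (o ∈ Cl ω (box b (2 * n)) ∧
      o ∉ Cl ω (box (fun j => b j + if j = a then 10 * n else 0) (2 * n)))) ≤ ε

lemma not_open_le {K : Finset (Sym2 (Fin d → ℤ))} {w : Sym2 (Fin d → ℤ) → ℝ} {p : ℝ}
    (hp0 : 0 ≤ p) (c : Fin d → ℤ) (n : ℤ) (h : ∀ e ∈ edgesIn (box c n), e ∈ K ∧ p ≤ w e) :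
    Ex K w (fun ω => ind (¬ edgesIn (box c n) ⊆ ω)) ≤
      1 - p ^ (edgesIn (box (0 : Fin d → ℤ) n)).card := by
  have h1 := Ex_open (K := K) w (fun e he => (h e he).1)
  have h2 := Ex_ind_not K w (fun ω => edgesIn (box c n) ⊆ ω)
  rw [h2, h1, ← card_edgesIn_box c, ← Finset.prod_const]
  exact sub_le_sub_left (Finset.prod_le_prod (fun _ _ => hp0) fun e he => (h e he).2) _

lemma chainHyp_one {p : ℝ} (hp0 : 0 ≤ p) :
    ChainHyp d p 0 1 (3 * (1 - p ^ (edgesIn (box (0 : Fin d → ℤ) 3)).card)) := by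
  intro K w hw _ b o a hU _ _
  have key : ∀ t : ℤ, 0 ≤ t → t ≤ 10 → Ex K w (fun ω =>
      ind (¬ edgesIn (box (fun j => b j + if j = a then t else 0) 3) ⊆ ω)) ≤
      1 - p ^ (edgesIn (box (0 : Fin d → ℤ) 3)).card := by
    intro t ht0 ht1
    refine not_open_le hp0 _ _ fun e he => ?_
    have hb : ∀ x ∈ box (fun j => b j + if j = a then t else 0) 3, tube b a 1 (4 * 1) x := by
      intro x hx i
      have := mem_box.1 hx i
      split_ifs at this ⊢ <;> omega
    induction e using Sym2.ind with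
    | _ x y =>
      obtain ⟨h1, h2, h3⟩ := mem_edgesIn.1 he
      exact hU x y h3 (hb x h1) (hb y h2)
  have h := add_le_add (add_le_add (key 0 (by omega) (by omega)) (key 5 (by omega) (by omega)))
    (key 10 (by omega) (by omega))
  rw [← Ex_add, ← Ex_add] at h
  refine le_trans (Ex_mono hw fun ω _ => ?_) (h.trans (le_of_eq (by ring)))
  have n1 := ind_nonneg (¬ edgesIn (box (fun j => b j + if j = a then 0 else 0) 3) ⊆ ω)
  have n2 := ind_nonneg (¬ edgesIn (box (fun j => b j + if j = a then 5 else 0) 3) ⊆ ω)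
  have n3 := ind_nonneg (¬ edgesIn (box (fun j => b j + if j = a then 10 else 0) 3) ⊆ ω)
  have n4 := ind_le_one (o ∈ Cl ω (box b (2 * 1)) ∧
      o ∉ Cl ω (box (fun j => b j + if j = a then 10 * 1 else 0) (2 * 1)))
  by_cases h1 : edgesIn (box (fun j => b j + if j = a then 0 else 0) 3) ⊆ ω
  swap
  · rw [ind_pos h1]; linarith
  by_cases h2 : edgesIn (box (fun j => b j + if j = a then 5 else 0) 3) ⊆ ω
  swap
  · rw [ind_pos h2]; linarith
  by_cases h3 : edgesIn (box (fun j => b j + if j = a then 10 else 0) 3) ⊆ ω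
  swap
  · rw [ind_pos h3]; linarith
  rw [ind_neg]
  · linarith
  rintro ⟨⟨x, hx, h4⟩, h5⟩
  have hm : ∀ s t : ℤ, t - 3 ≤ s → s ≤ t + 3 → (fun j => b j + if j = a then s else 0) ∈
      box (fun j => b j + if j = a then t else 0) 3 := by
    intro s t h6 h7
    rw [mem_box]; intro i
    split_ifs <;> omega
  have hx' : x ∈ box (fun j => b j + if j = a then 0 else 0) 3 := by
    rw [mem_box]; intro i
    have := mem_box.1 hx i
    split_ifs <;> omega
  refine h5 ⟨_, self_mem_box _ (by norm_num), Conn.trans ?_ h4⟩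
  exact ((conn_box (hm (10 * 1) 10 (by omega) (by omega)) (hm 7 10 (by omega) (by omega))).mono
    h3).trans (((conn_box (hm 7 5 (by omega) (by omega)) (hm 3 5 (by omega) (by omega))).mono
    h2).trans ((conn_box (hm 3 0 (by omega) (by omega)) hx').mono h1))

lemma fresh_one (hd : 0 < d) {p : ℝ} (hp0 : 0 ≤ p) (hp1 : p ≤ 1) :
    Fresh d p 0 1 (1 - p ^ (edgesIn (box (0 : Fin d → ℤ) 1)).card) := by
  refine ⟨⟨0, hd⟩, fun _ => true, ?_⟩
  have h1 := Ex_open (K := edgesIn (box (0 : Fin d → ℤ) 1)) (fun _ => p) subset_rfl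
  rw [sub_sub_cancel, ← Finset.prod_const, ← h1]
  refine Ex_mono (fun _ => ⟨hp0, hp1⟩) fun ω _ => ind_mono fun h => ?_
  refine ⟨0, self_mem_box _ le_rfl, fun _ => 1, ?_, (conn_box (self_mem_box _ (by norm_num))
    (mem_box.2 fun i => by simp)).mono h⟩
  simp [face, sgn]

end Vale.Agent.P151
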