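import Vale.Agent.P151.Fin

namespace Vale.Agent.P151
open Finset
open scoped Classical

variable {V : Type*}

def Conn (ω : Finset (Sym2 V)) (x y : V) : Prop :=
  Relation.ReflTransGen (fun a b => s(a, b) ∈ ω) x y

lemma Conn.refl (ω : Finset (Sym2 V)) (x : V) : Conn ω x x := Relation.ReflTransGen.refl

lemma Conn.trans {ω : Finset (Sym2 V)} {x y z : V} (h : Conn ω x y) (h' : Conn ω y z) :
    Conn ω x z := Relation.ReflTransGen.trans h h'

lemma Conn.edge {ω : Finset (Sym2 V)} {x y : V} (h : s(x, y) ∈ ω) : Conn ω x y :=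
  Relation.ReflTransGen.single h

lemma Conn.symm {ω : Finset (Sym2 V)} {x y : V} (h : Conn ω x y) : Conn ω y x := by
  induction h with
  | refl => exact Conn.refl _ _
  | tail _ h2 ih => exact (Conn.edge (Sym2.eq_swap ▸ h2)).trans ih

lemma Conn.mono {ω ω' : Finset (Sym2 V)} (hω : ω ⊆ ω') {x y : V} (h : Conn ω x y) :
    Conn ω' x y := by
  induction h with
  | refl => exact Conn.refl _ _
  | tail _ h2 ih => exact ih.trans (Conn.edge (hω h2))

lemma Conn.closed {ω : Finset (Sym2 V)} {S : Set V} (hS : ∀ a b, a ∈ S → s(a, b) ∈ ω → b ∈ S)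
    {x y : V} (h : Conn ω x y) (hx : x ∈ S) : y ∈ S := by
  induction h with
  | refl => exact hx
  | tail _ h2 ih => exact hS _ _ ih h2

/-- union of the clusters of the points of `Y` -/
def Cl (ω : Finset (Sym2 V)) (Y : Set V) : Set V := {v | ∃ y ∈ Y, Conn ω y v}

/-- cluster of `x` -/
def C (ω : Finset (Sym2 V)) (x : V) : Set V := {v | Conn ω x v}

lemma C_eq (ω : Finset (Sym2 V)) (x : V) : C ω x = Cl ω {x} := by
  ext v; simp [C, Cl]

lemma subset_Cl (ω : Finset (Sym2 V)) (Y : Set V) : Y ⊆ Cl ω Y :=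
  fun y hy => ⟨y, hy, Conn.refl _ _⟩

lemma self_mem_C (ω : Finset (Sym2 V)) (x : V) : x ∈ C ω x := Conn.refl _ _

lemma Cl_mono {ω ω' : Finset (Sym2 V)} (hω : ω ⊆ ω') {Y Y' : Set V} (hY : Y ⊆ Y') :
    Cl ω Y ⊆ Cl ω' Y' := fun _ ⟨y, hy, h⟩ => ⟨y, hY hy, h.mono hω⟩

lemma C_mono {ω ω' : Finset (Sym2 V)} (hω : ω ⊆ ω') (x : V) : C ω x ⊆ C ω' x :=
  fun _ h => Conn.mono hω h

lemma Cl_step {ω : Finset (Sym2 V)} {Y : Set V} {a b : V} (ha : a ∈ Cl ω Y) (h : Conn ω a b) :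
    b ∈ Cl ω Y := by
  obtain ⟨y, hy, h1⟩ := ha
  exact ⟨y, hy, h1.trans h⟩

lemma C_eq_of_conn {ω : Finset (Sym2 V)} {a b : V} (h : Conn ω a b) : C ω a = C ω b := by
  ext v
  exact ⟨fun h1 => h.symm.trans h1, fun h1 => h.trans h1⟩

lemma not_mem_Cl_iff {ω : Finset (Sym2 V)} {Y : Set V} {x : V} :
    x ∉ Cl ω Y ↔ Disjoint (C ω x) Y := by
  rw [Set.disjoint_left]
  constructor
  · intro h v hv hY
    exact h ⟨v, hY, Conn.symm hv⟩
  · rintro h ⟨y, hy, h1⟩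
    exact h (a := y) h1.symm hy

lemma disjoint_C_Cl {ω : Finset (Sym2 V)} {Y : Set V} {x : V} (h : x ∉ Cl ω Y) :
    Disjoint (C ω x) (Cl ω Y) := by
  rw [Set.disjoint_left]
  intro v hv hY
  exact h (Cl_step hY (Conn.symm hv))

lemma mem_Cl_insert {ω : Finset (Sym2 V)} {Y : Set V} {x v : V} :
    v ∈ Cl ω (insert x Y) ↔ v ∈ C ω x ∨ v ∈ Cl ω Y := by
  simp [Cl, C]

def touch (R : Set V) (e : Sym2 V) : Prop := ∃ v ∈ R, v ∈ e

/-- close all edges touching `R` -/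
noncomputable def del (R : Set V) (ω : Finset (Sym2 V)) : Finset (Sym2 V) :=
  ω.filter (fun e => ¬ touch R e)

lemma mem_del {R : Set V} {ω : Finset (Sym2 V)} {e : Sym2 V} :
    e ∈ del R ω ↔ e ∈ ω ∧ ¬ touch R e := by simp [del]

lemma del_subset (R : Set V) (ω : Finset (Sym2 V)) : del R ω ⊆ ω := filter_subset _ _

lemma del_mono {R R' : Set V} (h : R ⊆ R') {ω ω' : Finset (Sym2 V)} (hω : ω ⊆ ω') :
    del R' ω ⊆ del R ω' := by
  intro e he
  rw [mem_del] at he ⊢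
  exact ⟨hω he.1, fun ⟨v, hv, hv'⟩ => he.2 ⟨v, h hv, hv'⟩⟩

lemma del_empty (R : Set V) : del R (∅ : Finset (Sym2 V)) = ∅ := by simp [del]

lemma del_comm (R S : Set V) (ω : Finset (Sym2 V)) : del R (del S ω) = del S (del R ω) := by
  ext e; simp only [mem_del]; tauto

lemma del_hyb (R : Set V) (ω ω' : Finset (Sym2 V)) : del R (hyb (touch R) ω ω') = del R ω' := by
  ext e; simp only [mem_del, mem_hyb]; tauto

lemma Cl_subset_of_agree {ω ω' : Finset (Sym2 V)} {Y : Set V}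
    (h : ∀ e, touch (Cl ω Y) e → e ∈ ω → e ∈ ω') : Cl ω Y ⊆ Cl ω' Y := by
  rintro v ⟨y, hy, hv⟩
  refine ⟨y, hy, ?_⟩
  induction hv with
  | refl => exact Conn.refl _ _
  | @tail a b h1 h2 ih =>
    exact ih.trans (Conn.edge (h _ ⟨a, ⟨y, hy, h1⟩, Sym2.mem_mk_left a b⟩ h2))

lemma Cl_stop {ω ω' : Finset (Sym2 V)} {Y : Set V}
    (h : ∀ e, touch (Cl ω Y) e → (e ∈ ω ↔ e ∈ ω')) : Cl ω' Y = Cl ω Y := by
  apply Set.Subset.antisymm
  · rintro v ⟨y, hy, hv⟩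
    refine Conn.closed (S := Cl ω Y) ?_ hv (subset_Cl _ _ hy)
    intro a b ha hab
    exact Cl_step ha (Conn.edge ((h _ ⟨a, ha, Sym2.mem_mk_left a b⟩).2 hab))
  · exact Cl_subset_of_agree fun e he => (h e he).1

lemma Cl_del {ω : Finset (Sym2 V)} {Y R : Set V} (h : Disjoint (Cl ω Y) R) :
    Cl (del R ω) Y = Cl ω Y := by
  apply Set.Subset.antisymm (Cl_mono (del_subset _ _) subset_rfl)
  refine Cl_subset_of_agree fun e he he' => mem_del.2 ⟨he', ?_⟩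
  rintro ⟨v, hv, hv'⟩
  obtain ⟨a, ha, ha'⟩ := he
  have : v ∈ Cl ω Y := by
    by_cases hav : a = v
    · exact hav ▸ ha
    · have : e = s(a, v) := (Sym2.mem_and_mem_iff hav).1 ⟨ha', hv'⟩
      exact Cl_step ha (Conn.edge (this ▸ he'))
  exact Set.disjoint_left.1 h this hv

lemma C_del {ω : Finset (Sym2 V)} {x : V} {R : Set V} (h : Disjoint (C ω x) R) :
    C (del R ω) x = C ω x := by
  rw [C_eq] at h; rw [C_eq, C_eq, Cl_del h]

lemma Ex_stopR (K : Finset (Sym2 V)) (w : Sym2 V → ℝ) (R : Finset (Sym2 V) → Set V)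
    (hR : ∀ ω ω', (∀ e, touch (R ω) e → (e ∈ ω ↔ e ∈ ω')) → R ω' = R ω)
    (F : Set V → Finset (Sym2 V) → ℝ) :
    Ex K w (fun ω => F (R ω) (del (R ω) ω)) =
      Ex K w (fun ω => Ex K w (fun ω' => F (R ω) (del (R ω) ω'))) := by
  rw [Ex_stop K w (fun ω => touch (R ω)) (fun ω ω' h => by rw [hR ω ω' h])]
  refine Ex_congr fun ω _ => Ex_congr fun ω' _ => ?_
  have : R (hyb (touch (R ω)) ω ω') = R ω := by
    apply hR
    intro e he
    simp [mem_hyb, he]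
  rw [this, del_hyb]

lemma Ex_Cl (K : Finset (Sym2 V)) (w : Sym2 V → ℝ) (Y : Set V)
    (F : Set V → Finset (Sym2 V) → ℝ) :
    Ex K w (fun ω => F (Cl ω Y) (del (Cl ω Y) ω)) =
      Ex K w (fun ω => Ex K w (fun ω' => F (Cl ω Y) (del (Cl ω Y) ω'))) :=
  Ex_stopR K w (fun ω => Cl ω Y) (fun _ _ h => Cl_stop h) F

lemma Ex_C (K : Finset (Sym2 V)) (w : Sym2 V → ℝ) (x : V)
    (F : Set V → Finset (Sym2 V) → ℝ) :
    Ex K w (fun ω => F (C ω x) (del (C ω x) ω)) =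
      Ex K w (fun ω => Ex K w (fun ω' => F (C ω x) (del (C ω x) ω'))) := by
  simp only [C_eq]; exact Ex_Cl K w {x} F

lemma Ex_Cl_del (K : Finset (Sym2 V)) (w : Sym2 V → ℝ) (Y S : Set V)
    (F : Set V → Finset (Sym2 V) → ℝ) :
    Ex K w (fun ω => F (Cl (del S ω) Y) (del (Cl (del S ω) Y) ω)) =
      Ex K w (fun ω => Ex K w (fun ω' => F (Cl (del S ω) Y) (del (Cl (del S ω) Y) ω'))) :=
  Ex_stopR K w (fun ω => Cl (del S ω) Y) (fun _ _ h => Cl_stop fun e he => by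
    simp only [mem_del, h e he]) F

end Vale.Agent.P151
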