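import Mathlib

namespace Vale.Agent.P151
open Finset
open scoped Classical

def vec : Fin 4 → ℤ × ℤ := ![(1, 0), (0, 1), (-1, 0), (0, -1)]

noncomputable def nxt (S : Set (ℤ × ℤ)) (s : (ℤ × ℤ) × Fin 4) : (ℤ × ℤ) × Fin 4 :=
  if s.1 + vec (s.2 + 1) ∉ S then (s.1, s.2 + 1)
  else if s.1 + vec (s.2 + 1) + vec s.2 ∉ S then (s.1 + vec (s.2 + 1), s.2)
  else (s.1 + vec (s.2 + 1) + vec s.2, s.2 + 3)

def Bd (S : Set (ℤ × ℤ)) (s : (ℤ × ℤ) × Fin 4) : Prop := s.1 ∈ S ∧ s.1 + vec s.2 ∉ S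

lemma vec_three (δ : Fin 4) : vec (δ + 3) = - vec (δ + 1) := by
  fin_cases δ <;> simp [vec]

lemma vec_two (δ : Fin 4) : vec (δ + 1 + 1) = - vec δ := by
  fin_cases δ <;> simp [vec]

lemma nxt_cases (S : Set (ℤ × ℤ)) (s : (ℤ × ℤ) × Fin 4) :
    (s.1 + vec (s.2 + 1) ∉ S ∧ nxt S s = (s.1, s.2 + 1)) ∨
    (s.1 + vec (s.2 + 1) ∈ S ∧ s.1 + vec (s.2 + 1) + vec s.2 ∉ S ∧
      nxt S s = (s.1 + vec (s.2 + 1), s.2)) ∨
    (s.1 + vec (s.2 + 1) ∈ S ∧ s.1 + vec (s.2 + 1) + vec s.2 ∈ S ∧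
      nxt S s = (s.1 + vec (s.2 + 1) + vec s.2, s.2 + 3)) := by
  unfold nxt
  by_cases h1 : s.1 + vec (s.2 + 1) ∈ S <;> by_cases h2 : s.1 + vec (s.2 + 1) + vec s.2 ∈ S <;>
    simp [h1, h2]

lemma Bd_nxt {S : Set (ℤ × ℤ)} {s : (ℤ × ℤ) × Fin 4} (h : Bd S s) : Bd S (nxt S s) := by
  rcases nxt_cases S s with ⟨h1, h2⟩ | ⟨h1, h2, h3⟩ | ⟨h1, h2, h3⟩
  · rw [h2]; exact ⟨h.1, h1⟩
  · rw [h3]; exact ⟨h1, h2⟩
  · rw [h3]
    refine ⟨h2, ?_⟩
    simp only [vec_three]
    have : s.1 + vec (s.2 + 1) + vec s.2 + -vec (s.2 + 1) = s.1 + vec s.2 := by abel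
    rw [this]; exact h.2

lemma nxt_inj {S : Set (ℤ × ℤ)} {s t : (ℤ × ℤ) × Fin 4} (hs : Bd S s) (ht : Bd S t)
    (h : nxt S s = nxt S t) : s = t := by
  obtain ⟨c, δ⟩ := s
  obtain ⟨c', δ'⟩ := t
  have e1 : ∀ a b : Fin 4, a + 1 = b + 3 → a = b + 1 + 1 := by decide
  have e2 : ∀ a b : Fin 4, a + 1 = b + 1 → a = b := by decide
  have e3 : ∀ a b : Fin 4, a + 3 = b + 3 → a = b := by decide
  have e4 : ∀ a : Fin 4, a + 3 + 1 = a := by decide
  simp only [Bd] at hs ht
  rcases nxt_cases S (c, δ) with ⟨h1, h2⟩ | ⟨h1, h2', h2⟩ | ⟨h1, h2', h2⟩ <;>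
  rcases nxt_cases S (c', δ') with ⟨h3, h4⟩ | ⟨h3, h4', h4⟩ | ⟨h3, h4', h4⟩ <;>
  rw [h2, h4] at h <;> simp only [Prod.mk.injEq] at h h1 h3 <;> obtain ⟨hc, hd⟩ := h
  · rw [hc, e2 _ _ hd]
  · exfalso
    subst hd
    rw [vec_two] at hc
    apply hs.2
    rw [hc]; simpa using ht.1
  · exfalso
    have := e1 _ _ hd
    subst this
    rw [vec_two] at hs
    apply hs.2
    rw [hc]; simpa using h3
  · exfalso
    subst hd
    rw [vec_two] at hc
    apply ht.2
    rw [← hc]; simpa using hs.1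
  · subst hd
    rw [add_right_cancel hc]
  · exfalso
    subst hd
    rw [e4] at hc
    apply hs.2
    rw [add_right_cancel hc, vec_three]; simpa using ht.1
  · exfalso
    have := e1 _ _ hd.symm
    subst this
    rw [vec_two] at ht
    apply ht.2
    rw [← hc]; simpa using h1
  · exfalso
    subst hd
    rw [e4] at hc
    apply ht.2
    rw [← add_right_cancel hc, vec_three]; simpa using hs.1
  · have := e3 _ _ hd
    subst this
    rw [add_right_cancel (add_right_cancel hc)]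

def stp (δ δ' : Fin 4) : ℤ × ℤ :=
  if δ' = δ + 1 then 0 else if δ' = δ then vec (δ + 1) else vec (δ + 1) + vec δ

lemma nxt_fst (S : Set (ℤ × ℤ)) (s : (ℤ × ℤ) × Fin 4) :
    (nxt S s).1 = s.1 + stp s.2 (nxt S s).2 := by
  have e1 : ∀ a : Fin 4, a ≠ a + 1 := by decide
  have e2 : ∀ a : Fin 4, a + 3 ≠ a + 1 := by decide
  have e3 : ∀ a : Fin 4, a + 3 ≠ a := by decide
  rcases nxt_cases S s with ⟨h1, h2⟩ | ⟨h1, h2', h2⟩ | ⟨h1, h2', h2⟩ <;> rw [h2] <;>
    simp [stp, e1, e2, e3, add_assoc]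

def sg (δ : Fin 4) : ℤ := if δ = 0 ∨ δ = 1 then 1 else -1

def pot (s : (ℤ × ℤ) × Fin 4) : ℤ :=
  2 * (s.1.2 - s.1.1) + ((vec s.2).2 - (vec s.2).1) - ((vec (s.2 + 1)).2 - (vec (s.2 + 1)).1)

lemma pot_nxt (S : Set (ℤ × ℤ)) (s : (ℤ × ℤ) × Fin 4) : pot (nxt S s) = pot s + 2 * sg s.2 := by
  obtain ⟨c, δ⟩ := s
  have h1 : ∀ δ : Fin 4, ((vec (δ + 1)).2 - (vec (δ + 1)).1) = sg δ := by decide
  have e4 : ∀ a : Fin 4, a + 3 + 1 = a := by decide
  have h2 := h1 δ
  rcases nxt_cases S (c, δ) with ⟨h1, h3⟩ | ⟨h1, h2', h3⟩ | ⟨h1, h2', h3⟩ <;> rw [h3]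
  · simp only [pot, vec_two, Prod.fst_neg, Prod.snd_neg]; linarith
  · simp only [pot, Prod.fst_add, Prod.snd_add]; linarith
  · simp only [pot, Prod.fst_add, Prod.snd_add, vec_three, e4, Prod.fst_neg, Prod.snd_neg]; linarith

def pos (s : ℕ → Fin 4) : ℕ → ℤ × ℤ
  | 0 => (0, 0)
  | i + 1 => pos s i + stp (s i) (s (i + 1))

def extd {n : ℕ} (s : Fin n → Fin 4) (i : ℕ) : Fin 4 := if h : i < n then s ⟨i, h⟩ else 0

noncomputable def fails (n : ℕ) (s : ℕ → Fin 4) : Finset (ℤ × ℤ) :=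
  ((range n).filter (fun i => s i = 0 ∨ s i = 1)).image (fun i => pos s i + vec (s i))

lemma geom_le (m : ℕ) : ∑ n ∈ range m, ((1:ℝ) / 4) ^ (n + 1) ≤ 1 / 2 - (1 / 4) ^ m / 3 := by
  induction m with
  | zero => norm_num
  | succ m ih => rw [sum_range_succ, pow_succ]; linarith

theorem contour (N : ℕ) : ∃ (ι : Type) (I : Finset ι) (F : ι → Finset (ℤ × ℤ)),
    (∑ i ∈ I, ((1:ℝ) / 2 ^ 16) ^ (F i).card ≤ 1 / 2) ∧
    ∀ S : Set (ℤ × ℤ), ((0:ℤ), (0:ℤ)) ∈ S → (∀ c ∈ S, 0 ≤ c.1 ∧ 0 ≤ c.2 ∧ c.1 + c.2 < N) →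
      ∃ i ∈ I, ∀ z ∈ F i, z ∉ S ∧ ((z.1 - 1, z.2) ∈ S ∨ (z.1, z.2 - 1) ∈ S) := by
  set B : Finset ((ℤ × ℤ) × Fin 4) := (Icc ((0:ℤ), (0:ℤ)) ((N:ℤ), (N:ℤ))) ×ˢ univ with hB
  refine ⟨Σ n : ℕ, (Fin (n + 1) → Fin 4), (range B.card).sigma (fun n => univ.filter
    (fun s : Fin (n + 1) → Fin 4 => n + 1 ≤ 4 * (fails (n + 1) (extd s)).card)),
    fun i => fails (i.1 + 1) (extd i.2), ?_, ?_⟩
  · rw [Finset.sum_sigma]
    refine le_trans (Finset.sum_le_sum (g := fun n => ((1:ℝ) / 4) ^ (n + 1)) fun n _ => ?_) ?_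
    · calc _ ≤ ∑ s ∈ univ.filter (fun s : Fin (n + 1) → Fin 4 =>
            n + 1 ≤ 4 * (fails (n + 1) (extd s)).card), ((1:ℝ) / 16) ^ (n + 1) := by
            refine Finset.sum_le_sum fun s hs => ?_
            have h1 := (mem_filter.1 hs).2
            have h2 : ((1:ℝ) / 2 ^ 16) = (1 / 16) ^ 4 := by norm_num
            simp only
            rw [h2, ← pow_mul]
            exact pow_le_pow_of_le_one (by norm_num) (by norm_num) h1
        _ ≤ ∑ s : Fin (n + 1) → Fin 4, ((1:ℝ) / 16) ^ (n + 1) :=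
            Finset.sum_le_sum_of_subset_of_nonneg (filter_subset _ _) fun _ _ _ => by positivity
        _ = (1 / 4) ^ (n + 1) := by
            rw [Finset.sum_const, card_univ, Fintype.card_fun, Fintype.card_fin, Fintype.card_fin,
              nsmul_eq_mul]
            push_cast
            rw [← mul_pow]; norm_num
    · have := geom_le B.card
      have h2 : (0:ℝ) ≤ (1 / 4) ^ B.card / 3 := by positivity
      linarith
  · intro S h0 hS
    set st : ℕ → (ℤ × ℤ) × Fin 4 := fun i => (nxt S)^[i] ((0, 0), 2) with hst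
    have hsucc : ∀ i, st (i + 1) = nxt S (st i) := fun i => Function.iterate_succ_apply' _ _ _
    have hbd : ∀ i, Bd S (st i) := by
      intro i
      induction i with
      | zero =>
        refine ⟨h0, fun h => ?_⟩
        have := (hS _ h).1
        simp [hst, vec] at this
      | succ i ih => rw [hsucc]; exact Bd_nxt ih
    have hmem : ∀ i, st i ∈ B := by
      intro i
      have := hS _ (hbd i).1
      simp only [hB, mem_product, mem_Icc, mem_univ, and_true, Prod.le_def]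
      omega
    have hex : ∃ n, ∃ i < n, st i = st n := by
      obtain ⟨i, j, hij, h⟩ := Finite.exists_ne_map_eq_of_infinite (fun i => (⟨st i, hmem i⟩ : B))
      have h' : st i = st j := congrArg Subtype.val h
      rcases lt_or_gt_of_ne hij with h1 | h1
      · exact ⟨j, i, h1, h'⟩
      · exact ⟨i, j, h1, h'.symm⟩
    obtain ⟨i, hi, hin⟩ := Nat.find_spec hex
    have hmin : ∀ j < Nat.find hex, ∀ i < j, st i ≠ st j := fun j hj i hi h =>
      Nat.find_min hex hj ⟨i, hi, h⟩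
    obtain ⟨n, hn⟩ : ∃ n, Nat.find hex = n + 1 := ⟨Nat.find hex - 1, by omega⟩
    rw [hn] at hi hin hmin
    have hi0 : i = 0 := by
      by_contra hne
      obtain ⟨i', rfl⟩ : ∃ i', i = i' + 1 := ⟨i - 1, by omega⟩
      rw [hsucc, hsucc] at hin
      exact hmin n (by omega) i' (by omega) (nxt_inj (hbd _) (hbd _) hin)
    subst hi0
    have hinj : ∀ i < n + 1, ∀ j < n + 1, st i = st j → i = j := by
      intro i hi j hj h
      rcases lt_trichotomy i j with h1 | h1 | h1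
      · exact absurd h (hmin j hj i h1)
      · exact h1
      · exact absurd h.symm (hmin i hi j h1)
    have hcard : n + 1 ≤ B.card := by
      rw [← card_range (n + 1)]
      exact card_le_card_of_injOn st (fun i _ => hmem i)
        (fun i hi j hj h => hinj i (mem_range.1 hi) j (mem_range.1 hj) h)
    set s : Fin (n + 1) → Fin 4 := fun i => (st i).2 with hs
    have hext : ∀ i < n + 1, extd s i = (st i).2 := fun i hi => by simp [extd, hi, hs]
    have hpos : ∀ i < n + 1, pos (extd s) i = (st i).1 := by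
      intro i
      induction i with
      | zero => intro _; rfl
      | succ i ih =>
        intro hi
        rw [pos, ih (by omega), hext i (by omega), hext _ hi, hsucc, nxt_fst]
    have hpot : ∀ m, pot (st m) = pot (st 0) + 2 * ∑ i ∈ range m, sg (st i).2 := by
      intro m
      induction m with
      | zero => simp
      | succ m ih => rw [hsucc, pot_nxt, ih, sum_range_succ]; ring
    have hsum : ∑ i ∈ range (n + 1), sg (st i).2 = 0 := by
      have := hpot (n + 1)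
      rw [← hin] at this
      linarith
    set P := (range (n + 1)).filter (fun i => extd s i = 0 ∨ extd s i = 1) with hP
    have hP2 : (n + 1 : ℤ) = 2 * P.card := by
      have h1 : ∑ i ∈ range (n + 1), (sg (st i).2 + 1) = ∑ i ∈ P, 2 := by
        rw [hP, Finset.sum_filter]
        refine Finset.sum_congr rfl fun i hi => ?_
        rw [hext i (mem_range.1 hi), sg]
        split_ifs <;> norm_num
      rw [Finset.sum_add_distrib, hsum] at h1
      simp at h1
      linarith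
    have hP3 : P.card ≤ ((fails (n + 1) (extd s)) ×ˢ ({0, 1} : Finset (Fin 4))).card := by
      refine card_le_card_of_injOn (fun i => (pos (extd s) i + vec (extd s i), extd s i)) ?_ ?_
      · intro i hi
        refine mem_coe.2 (mem_product.2 ⟨mem_image_of_mem _ hi, ?_⟩)
        simpa using (mem_filter.1 hi).2
      · intro i hi j hj h
        have hi' := mem_range.1 (mem_filter.1 hi).1
        have hj' := mem_range.1 (mem_filter.1 hj).1
        simp only [Prod.mk.injEq] at h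
        obtain ⟨h1, h2⟩ := h
        rw [h2] at h1
        have h3 := add_right_cancel h1
        rw [hpos i hi', hpos j hj'] at h3
        rw [hext i hi', hext j hj'] at h2
        exact hinj i hi' j hj' (Prod.ext h3 h2)
    rw [card_product] at hP3
    have h2 : ({0, 1} : Finset (Fin 4)).card = 2 := by decide
    rw [h2] at hP3
    refine ⟨⟨n, s⟩, mem_sigma.2 ⟨mem_range.2 hcard, mem_filter.2 ⟨mem_univ _, ?_⟩⟩, ?_⟩
    · simp only; omega
    · intro z hz
      obtain ⟨i, hi, rfl⟩ := mem_image.1 hz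
      obtain ⟨hi1, hi2⟩ := mem_filter.1 hi
      have hi' := mem_range.1 hi1
      simp only at hi2 hi' ⊢
      rw [hpos i hi', hext i hi']
      rw [hext i hi'] at hi2
      refine ⟨(hbd i).2, ?_⟩
      have := (hbd i).1
      rcases hi2 with h | h
      · left; rw [h]; simpa [vec] using this
      · right; rw [h]; simpa [vec] using this

end Vale.Agent.P151
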