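import Mathlib

namespace Vale.Agent.P151

/-- The nearest-neighbour lattice `ℤ^d`: two points are adjacent iff their `ℓ¹` distance is `1`. -/
def lattice (d : ℕ) : SimpleGraph (Fin d → ℤ) where
  Adj x y := ∑ i, |x i - y i| = 1
  symm := ⟨fun x y h => by simpa only [abs_sub_comm] using h⟩
  loopless := ⟨fun x h => by simp at h⟩

/-- The event that the set `ω` of open edges has an infinite open cluster. -/
def InfCluster (V : Type) : Set (Set (Sym2 V)) :=
  {ω | ∃ x : V, {y : V | (SimpleGraph.fromEdgeSet ω).Reachable x y}.Infinite}

/-- Bernoulli bond percolation on `G`: every edge of `G` is open independently with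
probability `p` (Mathlib's product measure `setBernoulli` on sets of edges). -/
noncomputable def perc {V : Type} (G : SimpleGraph V) (p : unitInterval) :
    MeasureTheory.Measure (Set (Sym2 V)) :=
  ProbabilityTheory.setBernoulli G.edgeSet p

/-- The critical probability `p_c(G) = inf {p : P_p(∃ infinite open cluster) > 0}`. -/
noncomputable def pc {V : Type} (G : SimpleGraph V) : unitInterval :=
  sInf {p : unitInterval | 0 < perc G p (InfCluster V)}

end Vale.Agent.P151
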