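import Mathlib

namespace Vale.Agent.P151
open Finset
open scoped Classical

/-- indicator of a proposition -/
noncomputable def ind (P : Prop) : ℝ := if P then 1 else 0

lemma ind_pos {P : Prop} (h : P) : ind P = 1 := by simp [ind, h]
lemma ind_neg {P : Prop} (h : ¬ P) : ind P = 0 := by simp [ind, h]
lemma ind_nonneg (P : Prop) : 0 ≤ ind P := by unfold ind; split_ifs <;> norm_num
lemma ind_le_one (P : Prop) : ind P ≤ 1 := by unfold ind; split_ifs <;> norm_num
lemma ind_mono {P Q : Prop} (h : P → Q) : ind P ≤ ind Q := by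
  by_cases hP : P
  · rw [ind_pos hP, ind_pos (h hP)]
  · rw [ind_neg hP]; exact ind_nonneg _
lemma ind_congr {P Q : Prop} (h : P ↔ Q) : ind P = ind Q := by rw [propext h]
lemma ind_not (P : Prop) : ind (¬ P) = 1 - ind P := by
  by_cases hP : P <;> simp [ind, hP]
lemma ind_and (P Q : Prop) : ind (P ∧ Q) = ind P * ind Q := by
  by_cases hP : P <;> by_cases hQ : Q <;> simp [ind, hP, hQ]

variable {E : Type*}

/-- expectation under the product measure on subsets of `K` -/
noncomputable def Ex (K : Finset E) (w : E → ℝ) (f : Finset E → ℝ) : ℝ :=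
  ∑ ω ∈ K.powerset, ((∏ e ∈ ω, w e) * ∏ e ∈ K \ ω, (1 - w e)) * f ω

def W01 (w : E → ℝ) : Prop := ∀ e, 0 ≤ w e ∧ w e ≤ 1

lemma Ex_empty (w : E → ℝ) (f : Finset E → ℝ) : Ex ∅ w f = f ∅ := by simp [Ex]

lemma Ex_insert {K : Finset E} {e : E} (he : e ∉ K) (w : E → ℝ) (f : Finset E → ℝ) :
    Ex (insert e K) w f = w e * Ex K w (fun ω => f (insert e ω)) + (1 - w e) * Ex K w f := by
  unfold Ex
  rw [Finset.sum_powerset_insert he, add_comm, Finset.mul_sum, Finset.mul_sum]
  congr 1
  · refine Finset.sum_congr rfl fun ω hω => ?_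
    have hω' : ω ⊆ K := Finset.mem_powerset.1 hω
    have h1 : e ∉ ω := fun h => he (hω' h)
    have h2 : insert e K \ insert e ω = K \ ω := by
      ext x; simp only [mem_sdiff, mem_insert]
      constructor
      · rintro ⟨h3 | h3, h4⟩
        · exact absurd (Or.inl h3) h4
        · exact ⟨h3, fun h => h4 (Or.inr h)⟩
      · rintro ⟨h3, h4⟩
        refine ⟨Or.inr h3, ?_⟩
        rintro (h | h)
        · exact he (h ▸ h3)
        · exact h4 h
    rw [Finset.prod_insert h1, h2]; ring
  · refine Finset.sum_congr rfl fun ω hω => ?_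
    have hω' : ω ⊆ K := Finset.mem_powerset.1 hω
    have h1 : e ∉ ω := fun h => he (hω' h)
    have h2 : insert e K \ ω = insert e (K \ ω) := by
      ext x; simp only [mem_sdiff, mem_insert]
      constructor
      · rintro ⟨h3 | h3, h4⟩
        · exact Or.inl h3
        · exact Or.inr ⟨h3, h4⟩
      · rintro (h3 | ⟨h3, h4⟩)
        · exact ⟨Or.inl h3, h3 ▸ h1⟩
        · exact ⟨Or.inr h3, h4⟩
    have h3 : e ∉ K \ ω := fun h => he (mem_sdiff.1 h).1
    rw [h2, Finset.prod_insert h3]; ring

lemma Ex_congr {K : Finset E} {w : E → ℝ} {f g : Finset E → ℝ} (h : ∀ ω ⊆ K, f ω = g ω) :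
    Ex K w f = Ex K w g :=
  Finset.sum_congr rfl fun ω hω => by rw [h ω (Finset.mem_powerset.1 hω)]

lemma Ex_const (K : Finset E) (w : E → ℝ) (c : ℝ) : Ex K w (fun _ => c) = c := by
  induction K using Finset.induction_on with
  | empty => simp [Ex_empty]
  | insert e K he ih => rw [Ex_insert he, ih]; ring

lemma Ex_add (K : Finset E) (w : E → ℝ) (f g : Finset E → ℝ) :
    Ex K w (fun ω => f ω + g ω) = Ex K w f + Ex K w g := by
  simp only [Ex, mul_add, Finset.sum_add_distrib]

lemma Ex_sub (K : Finset E) (w : E → ℝ) (f g : Finset E → ℝ) :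
    Ex K w (fun ω => f ω - g ω) = Ex K w f - Ex K w g := by
  simp only [Ex, mul_sub, Finset.sum_sub_distrib]

lemma Ex_mul_left (K : Finset E) (w : E → ℝ) (c : ℝ) (f : Finset E → ℝ) :
    Ex K w (fun ω => c * f ω) = c * Ex K w f := by
  simp only [Ex, Finset.mul_sum]
  exact Finset.sum_congr rfl fun _ _ => by ring

lemma Ex_mul_right (K : Finset E) (w : E → ℝ) (c : ℝ) (f : Finset E → ℝ) :
    Ex K w (fun ω => f ω * c) = Ex K w f * c := by
  rw [mul_comm, ← Ex_mul_left]; simp only [mul_comm]

lemma Ex_neg (K : Finset E) (w : E → ℝ) (f : Finset E → ℝ) :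
    Ex K w (fun ω => - f ω) = - Ex K w f := by
  have := Ex_mul_left K w (-1) f
  simpa using this

lemma Ex_sum {ι : Type*} (s : Finset ι) (K : Finset E) (w : E → ℝ) (f : ι → Finset E → ℝ) :
    Ex K w (fun ω => ∑ i ∈ s, f i ω) = ∑ i ∈ s, Ex K w (f i) := by
  simp only [Ex, Finset.mul_sum]
  exact Finset.sum_comm

lemma Ex_mono {K : Finset E} {w : E → ℝ} (hw : W01 w) {f g : Finset E → ℝ}
    (h : ∀ ω ⊆ K, f ω ≤ g ω) : Ex K w f ≤ Ex K w g := by
  refine Finset.sum_le_sum fun ω hω => mul_le_mul_of_nonneg_left (h ω (Finset.mem_powerset.1 hω)) ?_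
  exact mul_nonneg (Finset.prod_nonneg fun e _ => (hw e).1)
    (Finset.prod_nonneg fun e _ => sub_nonneg.2 (hw e).2)

lemma Ex_nonneg {K : Finset E} {w : E → ℝ} (hw : W01 w) {f : Finset E → ℝ}
    (h : ∀ ω ⊆ K, 0 ≤ f ω) : 0 ≤ Ex K w f := by
  have := Ex_mono hw (f := fun _ => 0) h
  rwa [Ex_const] at this

lemma Ex_le_const {K : Finset E} {w : E → ℝ} (hw : W01 w) {f : Finset E → ℝ} {c : ℝ}
    (h : ∀ ω ⊆ K, f ω ≤ c) : Ex K w f ≤ c := by
  have := Ex_mono hw (g := fun _ => c) h
  rwa [Ex_const] at this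

lemma Ex_ge_const {K : Finset E} {w : E → ℝ} (hw : W01 w) {f : Finset E → ℝ} {c : ℝ}
    (h : ∀ ω ⊆ K, c ≤ f ω) : c ≤ Ex K w f := by
  have := Ex_mono hw (f := fun _ => c) h
  rwa [Ex_const] at this

lemma Ex_ind_not (K : Finset E) (w : E → ℝ) (A : Finset E → Prop) :
    Ex K w (fun ω => ind (¬ A ω)) = 1 - Ex K w (fun ω => ind (A ω)) := by
  simp only [ind_not]; rw [Ex_sub, Ex_const]

lemma Ex_congr_w {K : Finset E} {w w' : E → ℝ} (h : ∀ e ∈ K, w e = w' e) (f : Finset E → ℝ) :
    Ex K w f = Ex K w' f := by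
  refine Finset.sum_congr rfl fun ω hω => ?_
  have hω' : ω ⊆ K := Finset.mem_powerset.1 hω
  rw [Finset.prod_congr rfl fun e he => h e (hω' he),
    Finset.prod_congr (s₂ := K \ ω) rfl fun e he => by rw [h e (mem_sdiff.1 he).1]]

lemma Ex_comm {E' : Type*} (K : Finset E) (w : E → ℝ) (K' : Finset E') (w' : E' → ℝ)
    (F : Finset E → Finset E' → ℝ) :
    Ex K w (fun ω => Ex K' w' (fun ω' => F ω ω')) = Ex K' w' (fun ω' => Ex K w (fun ω => F ω ω')) := by
  simp only [Ex, Finset.mul_sum]
  rw [Finset.sum_comm]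
  exact Finset.sum_congr rfl fun _ _ => Finset.sum_congr rfl fun _ _ => by ring

lemma harris {K : Finset E} {w : E → ℝ} (hw : W01 w) {f g : Finset E → ℝ}
    (hf : Monotone f) (hg : Monotone g) :
    Ex K w f * Ex K w g ≤ Ex K w (fun ω => f ω * g ω) := by
  induction K using Finset.induction_on generalizing f g with
  | empty => simp [Ex_empty]
  | insert e K he ih =>
    rw [Ex_insert he, Ex_insert he, Ex_insert he]
    have hi : Monotone (fun ω : Finset E => insert e ω) := fun a b h => insert_subset_insert e h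
    have h1 := ih (hf.comp hi) (hg.comp hi)
    have h2 := ih hf hg
    have h3 : Ex K w f ≤ Ex K w (fun ω => f (insert e ω)) :=
      Ex_mono hw fun ω _ => hf (subset_insert e ω)
    have h4 : Ex K w g ≤ Ex K w (fun ω => g (insert e ω)) :=
      Ex_mono hw fun ω _ => hg (subset_insert e ω)
    simp only [Function.comp_def] at h1
    have h5 := (hw e).1
    have h6 := sub_nonneg.2 (hw e).2
    have h7 := mul_nonneg (mul_nonneg h5 h6) (mul_nonneg (sub_nonneg.2 h3) (sub_nonneg.2 h4))
    have h8 := mul_le_mul_of_nonneg_left h1 h5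
    have h9 := mul_le_mul_of_nonneg_left h2 h6
    nlinarith

/-- the configuration equal to `ω` on `A` and to `ω'` off `A` -/
noncomputable def hyb (A : E → Prop) (ω ω' : Finset E) : Finset E :=
  ω.filter A ∪ ω'.filter (fun e => ¬ A e)

lemma mem_hyb {A : E → Prop} {ω ω' : Finset E} {e : E} :
    e ∈ hyb A ω ω' ↔ (e ∈ ω ∧ A e) ∨ (e ∈ ω' ∧ ¬ A e) := by simp [hyb]

lemma hyb_subset {A : E → Prop} {ω ω' K : Finset E} (h : ω ⊆ K) (h' : ω' ⊆ K) :
    hyb A ω ω' ⊆ K := fun e he => by
  rcases mem_hyb.1 he with h1 | h1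
  · exact h h1.1
  · exact h' h1.1

lemma Ex_hyb (K : Finset E) (w : E → ℝ) (A : E → Prop) (F : Finset E → ℝ) :
    Ex K w F = Ex K w (fun ω => Ex K w (fun ω' => F (hyb A ω ω'))) := by
  induction K using Finset.induction_on generalizing F with
  | empty => simp [Ex_empty, hyb]
  | insert e K he ih =>
    simp only [Ex_insert he]
    rw [ih F, ih (fun ω => F (insert e ω))]
    by_cases hA : A e
    · have h1 : ∀ ω ω' : Finset E, hyb A (insert e ω) ω' = insert e (hyb A ω ω') := by
        intro ω ω'; ext x; simp only [mem_hyb, mem_insert]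
        by_cases hx : x = e
        · simp [hx, hA]
        · simp [hx]
      have h2 : ∀ ω ω' : Finset E, hyb A ω (insert e ω') = hyb A ω ω' := by
        intro ω ω'; ext x; simp only [mem_hyb, mem_insert]
        by_cases hx : x = e
        · simp [hx, hA]
        · simp [hx]
      simp only [h1, h2, Ex_add, Ex_mul_left]; ring
    · have h1 : ∀ ω ω' : Finset E, hyb A (insert e ω) ω' = hyb A ω ω' := by
        intro ω ω'; ext x; simp only [mem_hyb, mem_insert]
        by_cases hx : x = e
        · simp [hx, hA]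
        · simp [hx]
      have h2 : ∀ ω ω' : Finset E, hyb A ω (insert e ω') = insert e (hyb A ω ω') := by
        intro ω ω'; ext x; simp only [mem_hyb, mem_insert]
        by_cases hx : x = e
        · simp [hx, hA]
        · simp [hx]
      simp only [h1, h2, Ex_add, Ex_mul_left]; ring

/-- hybrid lemma for a stopping set of edges -/
lemma Ex_stop (K : Finset E) (w : E → ℝ) (T : Finset E → E → Prop)
    (hT : ∀ ω ω' : Finset E, (∀ e, T ω e → (e ∈ ω ↔ e ∈ ω')) → T ω' = T ω) (F : Finset E → ℝ) :
    Ex K w F = Ex K w (fun ω => Ex K w (fun ω' => F (hyb (T ω) ω ω'))) := by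
  have key : ∀ (A : E → Prop) (ω ω' : Finset E), T (hyb A ω ω') = A ↔ T ω = A := by
    intro A ω ω'
    constructor
    · intro h
      rw [← h]
      apply hT
      intro e he
      rw [h] at he
      simp [mem_hyb, he]
    · intro h
      rw [← h]
      apply hT
      intro e he
      simp [mem_hyb, he]
  have h1 : ∀ G : Finset E → ℝ, Ex K w G =
      ∑ A ∈ K.powerset.image T, Ex K w (fun ω => ind (T ω = A) * G ω) := by
    intro G
    rw [← Ex_sum]
    refine Ex_congr fun ω hω => ?_
    rw [← Finset.sum_mul, Finset.sum_eq_single (T ω), ind_pos rfl, one_mul]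
    · intro b _ hb; exact ind_neg (Ne.symm hb)
    · intro h; exact absurd (mem_image_of_mem T (mem_powerset.2 hω)) h
  rw [h1 F, h1 (fun ω => Ex K w (fun ω' => F (hyb (T ω) ω ω')))]
  refine Finset.sum_congr rfl fun A _ => ?_
  rw [Ex_hyb K w A]
  refine Ex_congr fun ω _ => ?_
  simp only [key]
  rw [Ex_mul_left]
  by_cases h : T ω = A
  · rw [h]
  · rw [ind_neg h]; simp

lemma Ex_indep (K : Finset E) (w : E → ℝ) (A : E → Prop) (f g : Finset E → ℝ)
    (hf : ∀ ω ω', f (hyb A ω ω') = f ω) (hg : ∀ ω ω', g (hyb A ω ω') = g ω') :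
    Ex K w (fun ω => f ω * g ω) = Ex K w f * Ex K w g := by
  rw [Ex_hyb K w A]
  simp only [hf, hg, Ex_mul_left, Ex_mul_right]

/-- conditioning weights -/
noncomputable def cw (w : E → ℝ) (A : E → Prop) (ξ : Finset E) : E → ℝ :=
  fun e => if A e then ind (e ∈ ξ) else w e

lemma cw_W01 {w : E → ℝ} (hw : W01 w) (A : E → Prop) (ξ : Finset E) : W01 (cw w A ξ) := by
  intro e; unfold cw; split_ifs
  · exact ⟨ind_nonneg _, ind_le_one _⟩
  · exact hw e

lemma Ex_cw_aux (K : Finset E) (w : E → ℝ) (A : E → Prop) (ξ : Finset E) (F : Finset E → ℝ) :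
    Ex K (cw w A ξ) F = Ex K w (fun ω => F (hyb A (ξ.filter (· ∈ K)) ω)) := by
  induction K using Finset.induction_on generalizing F with
  | empty => simp [Ex_empty, hyb]
  | insert e K he ih =>
    simp only [Ex_insert he]
    rw [ih F, ih (fun ω => F (insert e ω))]
    by_cases hA : A e
    · have h2 : ∀ ω ω' : Finset E, hyb A ω (insert e ω') = hyb A ω ω' := by
        intro ω ω'; ext x; simp only [mem_hyb, mem_insert]
        by_cases hx : x = e
        · simp [hx, hA]
        · simp [hx]
      by_cases hξ : e ∈ ξ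
      · have h1 : ∀ ω' : Finset E, hyb A (ξ.filter (· ∈ insert e K)) ω' =
            insert e (hyb A (ξ.filter (· ∈ K)) ω') := by
          intro ω'; ext x; simp only [mem_hyb, mem_insert, mem_filter]
          by_cases hx : x = e
          · simp [hx, hA, hξ]
          · simp [hx]
        simp only [h1, h2, cw, if_pos hA, ind_pos hξ]; ring
      · have h1 : ∀ ω' : Finset E, hyb A (ξ.filter (· ∈ insert e K)) ω' =
            (hyb A (ξ.filter (· ∈ K)) ω') := by
          intro ω'; ext x; simp only [mem_hyb, mem_insert, mem_filter]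
          by_cases hx : x = e
          · simp [hx, hA, hξ]
          · simp [hx]
        simp only [h1, h2, cw, if_pos hA, ind_neg hξ]; ring
    · have h1 : ∀ ω' : Finset E, hyb A (ξ.filter (· ∈ insert e K)) ω' =
          (hyb A (ξ.filter (· ∈ K)) ω') := by
        intro ω'; ext x; simp only [mem_hyb, mem_insert, mem_filter]
        by_cases hx : x = e
        · simp [hx, hA]
        · simp [hx]
      have h2 : ∀ ω ω' : Finset E, hyb A ω (insert e ω') = insert e (hyb A ω ω') := by
        intro ω ω'; ext x; simp only [mem_hyb, mem_insert]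
        by_cases hx : x = e
        · simp [hx, hA]
        · simp [hx]
      simp only [h1, h2, cw, if_neg hA]

lemma Ex_cw {K : Finset E} (w : E → ℝ) (A : E → Prop) {ξ : Finset E} (hξ : ξ ⊆ K)
    (F : Finset E → ℝ) : Ex K (cw w A ξ) F = Ex K w (fun ω => F (hyb A ξ ω)) := by
  rw [Ex_cw_aux, Finset.filter_true_of_mem (fun x hx => hξ hx)]

lemma Ex_mono_w {K : Finset E} {w w' : E → ℝ} (hw : W01 w) (hw' : W01 w')
    (h : ∀ e ∈ K, w e ≤ w' e) {f : Finset E → ℝ} (hf : Monotone f) : Ex K w f ≤ Ex K w' f := by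
  induction K using Finset.induction_on generalizing f with
  | empty => simp [Ex_empty]
  | insert e K he ih =>
    rw [Ex_insert he, Ex_insert he]
    have hi : Monotone (fun ω : Finset E => insert e ω) := fun a b h => insert_subset_insert e h
    have h' : ∀ x ∈ K, w x ≤ w' x := fun x hx => h x (mem_insert_of_mem hx)
    have h1 := ih h' (hf.comp hi)
    have h2 := ih h' hf
    have h3 : Ex K w' f ≤ Ex K w' (fun ω => f (insert e ω)) :=
      Ex_mono hw' fun ω _ => hf (subset_insert e ω)
    simp only [Function.comp_def] at h1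
    have h5 := (hw e).1
    have h6 := sub_nonneg.2 (hw e).2
    have h7 := mul_nonneg (sub_nonneg.2 (h e (mem_insert_self e K))) (sub_nonneg.2 h3)
    have h8 := mul_le_mul_of_nonneg_left h1 h5
    have h9 := mul_le_mul_of_nonneg_left h2 h6
    nlinarith

lemma Ex_mono_K {K K' : Finset E} {w : E → ℝ} (hw : W01 w) (h : K ⊆ K')
    {f : Finset E → ℝ} (hf : Monotone f) : Ex K w f ≤ Ex K' w f := by
  have key : ∀ D : Finset E, Ex K w f ≤ Ex (K ∪ D) w f := by
    intro D
    induction D using Finset.induction_on with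
    | empty => simp
    | insert e D he ih =>
      rw [union_insert]
      by_cases h1 : e ∈ K ∪ D
      · rwa [insert_eq_of_mem h1]
      · rw [Ex_insert h1]
        have h3 : Ex (K ∪ D) w f ≤ Ex (K ∪ D) w (fun ω => f (insert e ω)) :=
          Ex_mono hw fun ω _ => hf (subset_insert e ω)
        have h4 := mul_nonneg (hw e).1 (sub_nonneg.2 h3)
        linarith
  have := key K'
  rwa [union_eq_right.2 h] at this

lemma Ex_image {E' : Type*} [inst : DecidableEq E'] {φ : E → E'} (hφ : Function.Injective φ)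
    (K : Finset E) (w : E' → ℝ) (f : Finset E' → ℝ) :
    Ex (K.image φ) w f = Ex K (fun e => w (φ e)) (fun ω => f (ω.image φ)) := by
  obtain rfl : inst = fun a b => Classical.propDecidable (a = b) := Subsingleton.elim _ _
  induction K using Finset.induction_on generalizing f with
  | empty => simp [Ex_empty]
  | insert e K he ih =>
    have h1 : φ e ∉ K.image φ := by
      intro h
      obtain ⟨x, hx, hx'⟩ := mem_image.1 h
      exact he (hφ hx' ▸ hx)
    rw [image_insert, Ex_insert h1, Ex_insert he, ih, ih]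
    simp only [image_insert]

lemma Ex_continuous (K : Finset E) (w : ℝ → E → ℝ) (hw : ∀ e, Continuous fun t => w t e)
    (f : Finset E → ℝ) : Continuous fun t => Ex K (w t) f := by
  unfold Ex
  fun_prop

lemma Ex_open {K Q : Finset E} (w : E → ℝ) (h : Q ⊆ K) :
    Ex K w (fun ω => ind (Q ⊆ ω)) = ∏ e ∈ Q, w e := by
  induction K using Finset.induction_on generalizing Q with
  | empty => simp [Ex_empty, subset_empty.1 h, ind]
  | insert e K he ih =>
    rw [Ex_insert he]
    by_cases hQ : e ∈ Q
    · have h1 : Q.erase e ⊆ K := by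
        intro x hx
        rcases mem_insert.1 (h (mem_erase.1 hx).2) with h2 | h2
        · exact absurd h2 (mem_erase.1 hx).1
        · exact h2
      have h2 : Ex K w (fun ω => ind (Q ⊆ ω)) = 0 := by
        rw [Ex_congr (g := fun _ => 0), Ex_const]
        intro ω hω
        exact ind_neg fun h3 => he (hω (h3 hQ))
      rw [h2, ← Finset.mul_prod_erase Q w hQ, ← ih h1]
      simp only [subset_insert_iff]; ring
    · have h1 : Q ⊆ K := (subset_insert_iff_of_notMem hQ).1 h
      simp only [subset_insert_iff_of_notMem hQ]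
      rw [ih h1]; ring

lemma Ex_closed {K Q : Finset E} (w : E → ℝ) (h : Q ⊆ K) :
    Ex K w (fun ω => ind (Disjoint Q ω)) = ∏ e ∈ Q, (1 - w e) := by
  induction K using Finset.induction_on generalizing Q with
  | empty => simp [Ex_empty, subset_empty.1 h, ind]
  | insert e K he ih =>
    rw [Ex_insert he]
    by_cases hQ : e ∈ Q
    · have h1 : Q.erase e ⊆ K := by
        intro x hx
        rcases mem_insert.1 (h (mem_erase.1 hx).2) with h2 | h2
        · exact absurd h2 (mem_erase.1 hx).1
        · exact h2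
      have h2 : Ex K w (fun ω => ind (Disjoint Q (insert e ω))) = 0 := by
        rw [Ex_congr (g := fun _ => 0), Ex_const]
        intro ω hω
        exact ind_neg fun h3 => (disjoint_left.1 h3) hQ (mem_insert_self e ω)
      rw [h2, ← Finset.mul_prod_erase Q (fun e => 1 - w e) hQ, ← ih h1]
      rw [Ex_congr (g := fun ω => ind (Disjoint (Q.erase e) ω))]
      · ring
      · intro ω hω
        apply ind_congr
        constructor
        · exact fun h3 => Disjoint.mono_left (erase_subset e Q) h3
        · intro h3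
          rw [disjoint_left] at h3 ⊢
          intro x hx hx'
          exact h3 (mem_erase.2 ⟨fun h4 => he (hω (h4 ▸ hx')), hx⟩) hx'
    · have h1 : Q ⊆ K := (subset_insert_iff_of_notMem hQ).1 h
      simp only [disjoint_insert_right, hQ, not_false_eq_true, true_and]
      rw [ih h1]; ring

lemma Ex_ge_empty {K : Finset E} {w : E → ℝ} (hw : W01 w) {f : Finset E → ℝ}
    (hf : ∀ ω ⊆ K, 0 ≤ f ω) : (∏ e ∈ K, (1 - w e)) * f ∅ ≤ Ex K w f := by
  rw [← Ex_closed w (subset_refl K), ← Ex_mul_right]
  refine Ex_mono hw fun ω hω => ?_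
  by_cases h : Disjoint K ω
  · have : ω = ∅ := by
      rw [disjoint_comm] at h
      exact (Finset.disjoint_self_iff_empty ω).1 (Disjoint.mono_right hω h)
    rw [ind_pos h, this, one_mul]
  · rw [ind_neg h, zero_mul]; exact hf ω hω

end Vale.Agent.P151
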