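import Vale.Agent.P151.Lattice

namespace Vale.Agent.P151
open Finset
open scoped Classical

variable {d : ℕ}

lemma box_mono (c : Fin d → ℤ) {m n : ℤ} (h : m ≤ n) : box c m ⊆ box c n := by
  intro x hx
  rw [mem_box] at hx ⊢
  intro i; have := hx i; omega

lemma self_mem_box (c : Fin d → ℤ) {m : ℤ} (h : 0 ≤ m) : c ∈ box c m := by
  rw [mem_box]; intro i; omega

lemma adj_of_subset {S : Finset (Fin d → ℤ)} {ω : Finset (Sym2 (Fin d → ℤ))} (h : ω ⊆ edgesIn S)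
    (a b : Fin d → ℤ) (hab : s(a, b) ∈ ω) : (lattice d).Adj a b := (mem_edgesIn.1 (h hab)).2.2

lemma mem_of_conn {S : Finset (Fin d → ℤ)} {ω : Finset (Sym2 (Fin d → ℤ))} (h : ω ⊆ edgesIn S)
    {x y : Fin d → ℤ} (hx : x ∈ S) (hc : Conn ω x y) : y ∈ S :=
  Conn.closed (S := (S : Set _)) (fun _ _ _ hab => (mem_edgesIn.1 (h hab)).2.1) hc hx

def Cross (d : ℕ) (m n : ℤ) (ω : Finset (Sym2 (Fin d → ℤ))) : Prop :=
  ∃ x ∈ box (0 : Fin d → ℤ) m, ∃ y, (∃ i, |y i| = n) ∧ Conn ω x y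

def Arm (d : ℕ) (m : ℤ) (ω : Finset (Sym2 (Fin d → ℤ))) : Prop :=
  ∃ y, (∃ i, |y i| = m) ∧ Conn ω 0 y

lemma Cross_out (m n : ℤ) (ω : Finset (Sym2 (Fin d → ℤ))) :
    Cross d m n ω ↔ Cross d m n (out (box 0 m) ω) := by
  constructor
  · rintro ⟨x, hx, y, hy, h1⟩
    obtain ⟨v, hv⟩ := contacts_nonempty (M := box 0 m) (o := y) (ω := ω) ⟨x, hx, h1⟩
    exact ⟨v, (mem_filter.1 hv).1, y, hy, (mem_filter.1 hv).2.symm⟩
  · rintro ⟨x, hx, y, hy, h1⟩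
    exact ⟨x, hx, y, hy, h1.mono (filter_subset _ _)⟩

lemma filter_hyb_Ins (S : Finset (Fin d → ℤ)) (ω ω' : Finset (Sym2 (Fin d → ℤ))) :
    res (edgesIn S) (hyb (Ins S) ω ω') = res (edgesIn S) ω := by
  ext e
  simp only [mem_res, mem_hyb]
  by_cases he : e ∈ edgesIn S
  · have : Ins S e := by
      induction e using Sym2.ind with
      | _ a b => exact Ins_mk.2 ⟨(mem_edgesIn.1 he).1, (mem_edgesIn.1 he).2.1⟩
    simp [this]
  · simp [he]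

lemma zo_aux {p : ℝ} (hp0 : 0 ≤ p) (hp1 : p ≤ 1) {m n : ℤ} (hm : 0 ≤ m) (hn : m ≤ n) :
    arm d p m * Ex (edgesIn (box (0 : Fin d → ℤ) n)) (fun _ => p) (fun ω => ind (¬ Cross d m n ω)) ≤
      arm d p m - arm d p n := by
  have hw : W01 (fun _ : Sym2 (Fin d → ℤ) => p) := fun _ => ⟨hp0, hp1⟩
  have hKK : edgesIn (box (0 : Fin d → ℤ) m) ⊆ edgesIn (box (0 : Fin d → ℤ) n) :=
    edgesIn_mono (box_mono _ hn)
  have hU1 := Ex_restrict hKK (fun _ => p) (fun ω => ind (Arm d m ω))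
  have hind := Ex_indep (edgesIn (box (0 : Fin d → ℤ) n)) (fun _ => p) (Ins (box 0 m))
    (fun ω => ind (Arm d m (res (edgesIn (box (0 : Fin d → ℤ) m)) ω)))
    (fun ω => ind (¬ Cross d m n ω))
    (fun ω ω' => by rw [filter_hyb_Ins])
    (fun ω ω' => by rw [Cross_out, out_hyb, ← Cross_out])
  have e1 : ∀ n, arm d p n = Ex (edgesIn (box (0 : Fin d → ℤ) n)) (fun _ => p)
    (fun ω => ind (Arm d n ω)) := fun _ => rfl
  rw [e1, e1, ← hU1, ← hind, ← Ex_sub]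
  refine Ex_mono hw fun ω hω => ?_
  by_cases h3 : Arm d n ω
  · have h4 : Arm d m (res (edgesIn (box (0 : Fin d → ℤ) m)) ω) := by
      obtain ⟨y, ⟨i, hi⟩, h4⟩ := h3
      obtain ⟨z, ⟨j, hj⟩, hz⟩ := first_exit (adj_of_subset hω) (c := 0) (n := m)
        (self_mem_box _ hm) h4 ⟨i, by simp [hi, hn]⟩
      exact ⟨z, ⟨j, by simpa using hj⟩, hz⟩
    have h5 : ¬ ¬ Cross d m n ω := not_not.2 ⟨0, self_mem_box _ hm, h3⟩
    rw [ind_pos h3, ind_pos h4, ind_neg h5]; norm_num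
  · rw [ind_neg h3, sub_zero]
    exact mul_le_of_le_one_right (ind_nonneg _) (ind_le_one _)

lemma zero_one {p c η : ℝ} (hp0 : 0 ≤ p) (hp1 : p ≤ 1) (hc : 0 < c) (hη : 0 < η)
    (h : ∀ n : ℕ, c ≤ arm d p n) : ∃ m : ℕ, ∀ n : ℕ, m ≤ n →
    Ex (edgesIn (box (0 : Fin d → ℤ) n)) (fun _ => p) (fun ω => ind (¬ Cross d m n ω)) ≤ η := by
  have hw : W01 (fun _ : Sym2 (Fin d → ℤ) => p) := fun _ => ⟨hp0, hp1⟩
  have hbdd : BddBelow (Set.range fun n : ℕ => arm d p n) := ⟨c, by rintro _ ⟨n, rfl⟩; exact h n⟩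
  have ha1 : ∀ n : ℕ, ⨅ n : ℕ, arm d p n ≤ arm d p n := fun n => ciInf_le hbdd n
  obtain ⟨m, hm⟩ : ∃ m : ℕ, arm d p m < (⨅ n : ℕ, arm d p n) + η * c :=
    exists_lt_of_ciInf_lt (by linarith [mul_pos hη hc])
  refine ⟨m, fun n hn => ?_⟩
  have h2 := zo_aux (d := d) hp0 hp1 (Int.natCast_nonneg m) (n := n) (by exact_mod_cast hn)
  have h3 : 0 ≤ Ex (edgesIn (box (0 : Fin d → ℤ) n)) (fun _ => p)
    (fun ω => ind (¬ Cross d m n ω)) := Ex_nonneg hw fun _ _ => ind_nonneg _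
  have h4 := mul_le_mul_of_nonneg_right (h m) h3
  have h5 := ha1 n
  refine le_of_mul_le_mul_left ?_ hc
  linarith

lemma sqrt_trick (hd : 0 < d) {p η : ℝ} (hp0 : 0 ≤ p) (hp1 : p ≤ 1) (hη : 0 ≤ η) {m n : ℤ}
    (hmn : m ≤ n) (h : Ex (edgesIn (box (0 : Fin d → ℤ) n)) (fun _ => p)
      (fun ω => ind (¬ Cross d m n ω)) ≤
        η ^ (d * 2 ^ d)) : Fresh d p m n η := by
  have hw : W01 (fun _ : Sym2 (Fin d → ℤ) => p) := fun _ => ⟨hp0, hp1⟩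
  have h1 := harris_prod (K := edgesIn (box (0 : Fin d → ℤ) n)) hw
    (univ : Finset (Fin d × (Fin d → Bool))) (fun j => Hit m n 0 j.1 j.2)
    (fun _ ω ω' hω ⟨x, hx, y, hy, h1⟩ => ⟨x, hx, y, hy, h1.mono hω⟩)
  have h2 := h1.trans (le_trans (Ex_mono hw fun ω hω => ind_mono (fun h2 => ?_)) h)
  · obtain ⟨j, _, hj⟩ := exists_min_image (univ : Finset (Fin d × (Fin d → Bool)))
      (fun j => Ex (edgesIn (box (0 : Fin d → ℤ) n)) (fun _ => p)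
        (fun ω => ind (¬ Hit m n 0 j.1 j.2 ω))) ⟨(⟨0, hd⟩, fun _ => true), mem_univ _⟩
    refine ⟨j.1, j.2, ?_⟩
    have h3 := Finset.prod_le_prod (s := univ) (f := fun _ => Ex (edgesIn (box (0 : Fin d → ℤ) n))
      (fun _ => p) (fun ω => ind (¬ Hit m n 0 j.1 j.2 ω)))
      (fun _ _ => Ex_nonneg hw fun _ _ => ind_nonneg _) hj
    rw [Finset.prod_const, card_univ, Fintype.card_prod, Fintype.card_fun, Fintype.card_fin,
      Fintype.card_bool] at h3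
    have h4 := le_of_pow_le_pow_left₀ (by positivity) hη (h3.trans h2)
    rw [Ex_ind_not] at h4
    linarith
  · rintro ⟨x, hx, y, ⟨i, hi⟩, h3⟩
    have hy := mem_box.1 (mem_of_conn hω (box_mono _ hmn hx) h3)
    refine h2 (i, fun j => decide (0 ≤ y j)) (mem_univ _) ⟨x, hx, y, ⟨?_, fun j => ?_⟩, h3⟩
    · simp only [sgn, Pi.zero_apply, decide_eq_true_eq]
      rcases abs_cases (y i) with h4 | h4 <;> split_ifs <;> omega
    · have := hy j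
      simp only [sgn, Pi.zero_apply, decide_eq_true_eq] at this ⊢
      split_ifs <;> omega

end Vale.Agent.P151
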