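import Vale.Agent.P151.CSH

namespace Vale.Agent.P151
open Finset
open scoped Classical

variable {V : Type*} {K : Finset (Sym2 V)} {w : Sym2 V → ℝ}

noncomputable def shift (Λ : Set V → ℝ) (c : ℝ) (x : V) (S : Set V) : ℝ := Λ S - c * ind (x ∈ S)

lemma AddF_delta (x : V) : AddF (fun S : Set V => ind (x ∈ S)) := by
  intro A B h
  by_cases hA : x ∈ A
  · have hB : x ∉ B := Set.disjoint_left.1 h hA
    simp [ind, hA, hB]
  · by_cases hB : x ∈ B <;> simp [ind, hA, hB]

lemma AddF.shift {Λ : Set V → ℝ} (h : AddF Λ) (c : ℝ) (x : V) : AddF (shift Λ c x) := by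
  intro A B hAB
  have := AddF_delta x A B hAB
  simp only at this
  simp only [P151.shift, h A B hAB, this]; ring

lemma shift_of_not_mem (Λ : Set V → ℝ) (c : ℝ) {x : V} {S : Set V} (h : x ∉ S) :
    shift Λ c x S = Λ S := by simp [shift, ind_neg h]

lemma Con_shift {Λ : Set V → ℝ} (c : ℝ) {x : V} (D : List V) :
    ∀ Z : Set V, x ∈ Z → Con K w Λ D Z → Con K w (shift Λ c x) D Z := by
  induction D with
  | nil => intro _ _ _; trivial
  | cons d D ih =>
    intro Z hx h
    refine ⟨?_, ih _ (Set.mem_insert_of_mem _ hx) h.2⟩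
    rw [← h.1]
    refine Ex_congr fun ω _ => ?_
    by_cases h1 : d ∈ Cl ω Z
    · simp only [ind_neg (not_not.2 h1), mul_zero]
    · rw [shift_of_not_mem]
      exact fun h2 => h1 ⟨x, hx, Conn.symm h2⟩

lemma prob_pos (hw : W01' w) {x : V} {Y : Set V} (h : x ∉ Y) :
    0 < Ex K w (fun ω => ind (x ∉ Cl ω Y)) := by
  have h1 := Ex_ge_empty (K := K) hw.w01 (f := fun ω => ind (x ∉ Cl ω Y))
    (fun _ _ => ind_nonneg _)
  have h2 : x ∉ Cl (∅ : Finset (Sym2 V)) Y := by
    rintro ⟨y, hy, h3⟩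
    exact h (Conn.closed (S := Y) (fun a b _ h4 => absurd h4 (notMem_empty _)) h3 hy)
  rw [ind_pos h2, mul_one] at h1
  exact (hw.kappa K).trans_le h1

lemma Ex_shift_self (Λ : Set V → ℝ) (c : ℝ) (x : V) (Y : Set V) :
    Ex K w (fun ω => shift Λ c x (C ω x) * ind (x ∉ Cl ω Y)) =
      Ex K w (fun ω => Λ (C ω x) * ind (x ∉ Cl ω Y)) - c * Ex K w (fun ω => ind (x ∉ Cl ω Y)) := by
  rw [← Ex_mul_left, ← Ex_sub]
  refine Ex_congr fun ω _ => ?_
  rw [shift, ind_pos (self_mem_C ω x)]; ring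

lemma exists_shift (hw : W01' w) (Λ : Set V → ℝ) {x : V} {Y : Set V} (h : x ∉ Y) :
    ∃ c : ℝ, Ex K w (fun ω => shift Λ c x (C ω x) * ind (x ∉ Cl ω Y)) = 0 := by
  have := prob_pos (K := K) hw h
  refine ⟨Ex K w (fun ω => Λ (C ω x) * ind (x ∉ Cl ω Y)) / Ex K w (fun ω => ind (x ∉ Cl ω Y)), ?_⟩
  rw [Ex_shift_self]; field_simp; ring

lemma cfirst (hw : W01' w) (D : List V) : ∀ (x : V) (Y : Set V) (Λ : Set V → ℝ), AddF Λ → x ∉ D →
    (∀ S, Disjoint S (Y ∪ {d | d ∈ D}) → 0 ≤ Λ S) → Con K w Λ D (insert x Y) →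
    0 ≤ Ex K w (fun ω => Λ (C ω x) * ind (x ∉ Cl ω Y)) := by
  induction D with
  | nil =>
    intro x Y Λ _ _ hpos _
    refine Ex_nonneg hw.w01 fun ω _ => ?_
    by_cases h : x ∈ Cl ω Y
    · simp only [ind_neg (not_not.2 h), mul_zero, le_refl]
    · rw [ind_pos h, mul_one]
      apply hpos
      simpa using not_mem_Cl_iff.1 h
  | cons d D ih =>
    intro x Y Λ hΛ hx hpos hcon
    have hzero : ∀ (a : V) (φ : Finset (Sym2 V) → ℝ), a ∈ Y →
        Ex K w (fun ω => φ ω * ind (a ∉ Cl ω Y)) = 0 := by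
      intro a φ ha
      rw [Ex_congr (g := fun _ => 0), Ex_const]
      intro ω _
      rw [ind_neg (not_not.2 (subset_Cl _ _ ha)), mul_zero]
    by_cases hxY : x ∈ Y
    · rw [hzero x _ hxY]
    have hxd : x ≠ d := fun h => hx (h ▸ List.mem_cons_self)
    have hxD : x ∉ D := fun h => hx (List.mem_cons_of_mem _ h)
    have hU : Y ∪ {a | a ∈ d :: D} = insert d Y ∪ {a | a ∈ D} := by
      ext v; simp only [List.mem_cons, Set.mem_union, Set.mem_ofPred_eq, Set.mem_insert_iff]; tauto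
    rw [hU] at hpos
    have hcon2 : Con K w Λ D (insert x (insert d Y)) := by
      rw [Set.insert_comm]; exact hcon.2
    have ha := ih x (insert d Y) Λ hΛ hxD hpos hcon2
    have hsplit : Ex K w (fun ω => Λ (C ω x) * ind (x ∉ Cl ω Y)) =
        Ex K w (fun ω => Λ (C ω x) * ind (x ∉ Cl ω (insert d Y))) +
        (Ex K w (fun ω => Λ (C ω d) * ind (d ∉ Cl ω Y)) -
          Ex K w (fun ω => Λ (C ω d) * ind (d ∉ Cl ω (insert x Y)))) := by
      rw [← Ex_sub, ← Ex_add]
      refine Ex_congr fun ω _ => ?_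
      simp only [mem_Cl_insert]
      by_cases h1 : Conn ω d x
      · have h2 : x ∈ C ω d := h1
        have h3 : d ∈ C ω x := h1.symm
        have h4 : x ∈ Cl ω Y ↔ d ∈ Cl ω Y :=
          ⟨fun h => Cl_step h h1.symm, fun h => Cl_step h h1⟩
        simp only [h2, h3, true_or, not_true, ind_neg not_false, h4]
        rw [C_eq_of_conn h1]; ring
      · have h2 : x ∉ C ω d := h1
        have h3 : d ∉ C ω x := fun h => h1 (Conn.symm h)
        simp only [h2, h3, false_or]; ring
    rw [hsplit, hcon.1, sub_zero]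
    refine add_nonneg ha ?_
    by_cases hdY : d ∈ Y
    · rw [hzero d _ hdY]
    have hx' : x ∉ insert d Y := by simp [hxd, hxY]
    have hd' : d ∉ insert x Y := by simp [hxd.symm, hdY]
    obtain ⟨c1, hc1⟩ := exists_shift (K := K) hw Λ hx'
    obtain ⟨c2, hc2⟩ := exists_shift (K := K) hw (shift Λ c1 x) hdY
    have hc1' : 0 ≤ c1 := by
      rw [Ex_shift_self] at hc1
      have := prob_pos (K := K) hw hx'
      by_contra hneg
      push Not at hneg
      nlinarith
    have hcon3 : Con K w (shift (shift Λ c1 x) c2 d) (d :: x :: D) Y :=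
      ⟨hc2, Con_shift c2 (x :: D) _ (Set.mem_insert _ _)
        ⟨hc1, Con_shift c1 D _ (Set.mem_insert _ _) hcon2⟩⟩
    have h5 := csh hw ((hΛ.shift c1 x).shift c2 d) (x :: D) d Y (by
      intro S hS
      have h6 : d ∉ S := fun h => Set.disjoint_left.1 hS h (Or.inl (Or.inl rfl))
      have h7 : x ∉ S := fun h => Set.disjoint_left.1 hS h (Or.inr List.mem_cons_self)
      rw [shift_of_not_mem _ _ h6, shift_of_not_mem _ _ h7]
      refine hpos S (hS.mono_right ?_)
      rintro v (hv | hv)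
      · exact Or.inl hv
      · exact Or.inr (List.mem_cons_of_mem _ hv)) hcon3 (g := fun S => - ind (x ∉ S))
      (fun a b hab => neg_le_neg (ind_mono fun h1 h2 => h1 (hab h2)))
    have h6 : Ex K w (fun ω => - ind (x ∉ C ω d) *
        (shift (shift Λ c1 x) c2 d (C ω d) * ind (d ∉ Cl ω Y))) =
        c2 * Ex K w (fun ω => ind (d ∉ Cl ω (insert x Y))) -
          Ex K w (fun ω => Λ (C ω d) * ind (d ∉ Cl ω (insert x Y))) := by
      rw [← Ex_mul_left, ← Ex_sub]
      refine Ex_congr fun ω _ => ?_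
      simp only [mem_Cl_insert, shift, ind_pos (self_mem_C ω d)]
      by_cases h1 : Conn ω d x
      · have h2 : x ∈ C ω d := h1
        have h3 : d ∈ C ω x := h1.symm
        simp only [h2, h3, true_or, not_true, ind_neg not_false]; ring
      · have h2 : x ∉ C ω d := h1
        have h3 : d ∉ C ω x := fun h => h1 (Conn.symm h)
        simp only [h2, h3, false_or, not_false_eq_true, ind_neg not_false, ind_pos trivial]; ring
    rw [h6, hcon.1, sub_zero] at h5
    have hc2' : 0 ≤ c2 := by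
      have := prob_pos (K := K) hw hd'
      by_contra hneg
      push Not at hneg
      nlinarith
    rw [Ex_shift_self] at hc2
    have h7 := mul_nonneg hc2' (prob_pos (K := K) hw hdY).le
    have h8 : Ex K w (fun ω => shift Λ c1 x (C ω d) * ind (d ∉ Cl ω Y)) ≤
        Ex K w (fun ω => Λ (C ω d) * ind (d ∉ Cl ω Y)) := by
      refine Ex_mono hw.w01 fun ω _ => mul_le_mul_of_nonneg_right ?_ (ind_nonneg _)
      have := mul_nonneg hc1' (ind_nonneg (x ∈ C ω d))
      unfold shift; linarith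
    linarith

noncomputable def sur (F : Set V → ℝ) (m : V → ℝ) (Λ : Set V → ℝ) (ω : Finset (Sym2 V)) :
    List V → ℝ
  | [] => 0
  | k :: T => sur F m Λ ω T + (F (C ω k) - m k) * (Λ (C ω k) * ind (k ∉ Cl ω {t | t ∈ T}))

lemma sur_shift (F : Set V → ℝ) (m : V → ℝ) (Λ : Set V → ℝ) (c : ℝ) (x : V)
    (ω : Finset (Sym2 V)) (T : List V) :
    sur F m Λ ω T = sur F m (shift Λ c x) ω T + c * sur F m (fun S => ind (x ∈ S)) ω T := by
  induction T with
  | nil => simp [sur]
  | cons k T ih => simp only [sur, ih, shift]; ring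

lemma sur_delta (F : Set V → ℝ) (m : V → ℝ) (u : V) (ω : Finset (Sym2 V)) (T : List V) :
    (u ∉ Cl ω {t | t ∈ T} → sur F m (fun S => ind (u ∈ S)) ω T = 0) ∧
    (u ∈ Cl ω {t | t ∈ T} → ∃ a ∈ T, sur F m (fun S => ind (u ∈ S)) ω T = F (C ω u) - m a) := by
  induction T with
  | nil => simp [sur, Cl]
  | cons k T ih =>
    have hU : {t | t ∈ k :: T} = insert k {t | t ∈ T} := by ext v; simp
    rw [hU, mem_Cl_insert]
    constructor
    · intro h
      push Not at h
      simp only [sur, ih.1 h.2, ind_neg h.1]; ring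
    · intro h
      by_cases h1 : u ∈ Cl ω {t | t ∈ T}
      · obtain ⟨a, ha, ha'⟩ := ih.2 h1
        refine ⟨a, List.mem_cons_of_mem _ ha, ?_⟩
        simp only [sur, ha']
        by_cases h2 : u ∈ C ω k
        · rw [ind_neg (not_not.2 (Cl_step h1 (Conn.symm h2)))]; ring
        · rw [ind_neg h2]; ring
      · have h2 : u ∈ C ω k := h.resolve_right h1
        refine ⟨k, List.mem_cons_self, ?_⟩
        have h3 : k ∉ Cl ω {t | t ∈ T} := fun h3 => h1 (Cl_step h3 h2)
        simp only [sur, ih.1 h1, ind_pos h2, ind_pos h3]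
        rw [C_eq_of_conn h2]; ring

lemma sur_nonneg (hw : W01' w) {F : Set V → ℝ} (hF : Monotone F) (T : List V) :
    T.Nodup → T.Pairwise (fun a b => Ex K w (fun ω => F (C ω b)) ≤ Ex K w (fun ω => F (C ω a))) →
    ∀ (D : List V) (Λ : Set V → ℝ), AddF Λ → (∀ t ∈ T, t ∉ D) →
    (∀ S, Disjoint S {d | d ∈ D} → 0 ≤ Λ S) → Con K w Λ D {t | t ∈ T} →
    0 ≤ Ex K w (fun ω => sur F (fun a => Ex K w (fun ω => F (C ω a))) Λ ω T) := by
  set m : V → ℝ := fun a => Ex K w (fun ω => F (C ω a)) with hm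
  induction T with
  | nil => intro _ _ _ _ _ _ _ _; simp [sur, Ex_const]
  | cons k T ih =>
    intro hnd hpw D Λ hΛ hTD hpos hcon
    rw [List.nodup_cons] at hnd
    rw [List.pairwise_cons] at hpw
    have hU : {t | t ∈ k :: T} = insert k {t | t ∈ T} := by ext v; simp
    rw [hU] at hcon
    have hk : k ∉ {t | t ∈ T} := hnd.1
    obtain ⟨c, hc⟩ := exists_shift (K := K) hw Λ hk
    have hc0 : 0 ≤ c := by
      have h1 := cfirst (K := K) hw D k {t | t ∈ T} Λ hΛ (hTD k List.mem_cons_self)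
        (fun S hS => hpos S (hS.mono_right Set.subset_union_right)) hcon
      rw [Ex_shift_self] at hc
      have := prob_pos (K := K) hw hk
      by_contra hneg
      push Not at hneg
      nlinarith
    have hcon2 : Con K w (shift Λ c k) (k :: D) {t | t ∈ T} :=
      ⟨hc, Con_shift c D _ (Set.mem_insert _ _) hcon⟩
    have hpos2 : ∀ S, Disjoint S {d | d ∈ k :: D} → 0 ≤ shift Λ c k S := by
      intro S hS
      rw [shift_of_not_mem _ _ (fun h => Set.disjoint_left.1 hS h List.mem_cons_self)]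
      exact hpos S (hS.mono_right fun v hv => List.mem_cons_of_mem _ hv)
    have h1 := ih hnd.2 hpw.2 (k :: D) (shift Λ c k) (hΛ.shift c k) (by
      intro t ht h
      rcases List.mem_cons.1 h with h | h
      · exact hnd.1 (h ▸ ht)
      · exact hTD t (List.mem_cons_of_mem _ ht) h) hpos2 hcon2
    have h2 := csh hw (hΛ.shift c k) D k {t | t ∈ T} (fun S hS => hpos2 S (hS.mono_right (by
      intro v hv
      rcases List.mem_cons.1 hv with h | h
      · exact Or.inl (Or.inl h)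
      · exact Or.inr h))) hcon2 (g := fun S => F S - m k)
      (fun a b hab => sub_le_sub_right (hF hab) _)
    have h3 : 0 ≤ Ex K w (fun ω => sur F m (fun S => ind (k ∈ S)) ω (k :: T)) := by
      have h4 : Ex K w (fun ω => F (C ω k) - m k) = 0 := by
        rw [Ex_sub, Ex_const]; simp [hm]
      rw [← h4]
      refine Ex_mono hw.w01 fun ω _ => ?_
      obtain ⟨a, ha, ha'⟩ := (sur_delta F m k ω (k :: T)).2
        (subset_Cl _ _ List.mem_cons_self)
      rw [ha']
      rcases List.mem_cons.1 ha with h | h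
      · rw [h]
      · have := hpw.1 a h
        simp only [hm]; linarith
    simp only [sur_shift F m Λ c k _ (k :: T)]
    rw [Ex_add, Ex_mul_left]
    refine add_nonneg ?_ (mul_nonneg hc0 h3)
    simp only [sur]
    rw [Ex_add]
    exact add_nonneg h1 h2

lemma gen_lt (hw : W01' w) {F : Set V → ℝ} (hF : Monotone F) (o : V) (A : Finset V) (c : ℝ)
    (hc : ∀ a ∈ A, c ≤ Ex K w (fun ω => F (C ω a))) :
    c * Ex K w (fun ω => ind (o ∈ Cl ω A)) ≤ Ex K w (fun ω => F (C ω o) * ind (o ∈ Cl ω A)) := by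
  set m : V → ℝ := fun a => Ex K w (fun ω => F (C ω a)) with hm
  have hT : ∃ T : List V, T.Nodup ∧ T.Pairwise (fun a b => m b ≤ m a) ∧ ∀ t, t ∈ T ↔ t ∈ A := by
    clear hc
    induction A using Finset.induction_on_max_value m with
    | empty => exact ⟨[], by simp⟩
    | insert a s ha hs ih =>
      obtain ⟨T, h1, h2, h3⟩ := ih
      refine ⟨a :: T, List.nodup_cons.2 ⟨fun h => ha ((h3 a).1 h), h1⟩,
        List.pairwise_cons.2 ⟨fun b hb => hs b ((h3 b).1 hb), h2⟩, ?_⟩
      intro t; simp [h3]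
  obtain ⟨T, h1, h2, h3⟩ := hT
  have h4 := sur_nonneg (K := K) hw hF T h1 h2 [] (fun S => ind (o ∈ S)) (AddF_delta o)
    (by simp) (fun _ _ => ind_nonneg _) trivial
  have hU : {t | t ∈ T} = (A : Set V) := by ext v; simp [h3]
  rw [← sub_nonneg, ← Ex_mul_left, ← Ex_sub]
  refine h4.trans (Ex_mono hw.w01 fun ω _ => ?_)
  have h5 := sur_delta F m o ω T
  rw [hU] at h5
  by_cases h : o ∈ Cl ω A
  · obtain ⟨a, ha, ha'⟩ := h5.2 h
    rw [ha', ind_pos h]
    have := hc a ((h3 a).1 ha)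
    simp only [hm]; linarith
  · rw [h5.1 h, ind_neg h]; simp

/-- the Kozma-Nitzan inequality -/
theorem gen (hw : W01 w) {F : Set V → ℝ} (hF : Monotone F) (o : V) (A : Finset V) (c : ℝ)
    (hc : ∀ a ∈ A, c ≤ Ex K w (fun ω => F (C ω a))) :
    c * Ex K w (fun ω => ind (o ∈ Cl ω A)) ≤ Ex K w (fun ω => F (C ω o) * ind (o ∈ Cl ω A)) := by
  have hcont : ∀ f : Finset (Sym2 V) → ℝ, Filter.Tendsto (fun t : ℝ => Ex K (fun e => t * w e) f)
      (nhdsWithin 1 (Set.Iio 1)) (nhds (Ex K w f)) := by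
    intro f
    have := (Ex_continuous K (fun t e => t * w e) (fun e => by fun_prop) f).tendsto 1
    simp only [one_mul] at this
    exact this.mono_left nhdsWithin_le_nhds
  have key : ∀ c' < c, c' * Ex K w (fun ω => ind (o ∈ Cl ω A)) ≤
      Ex K w (fun ω => F (C ω o) * ind (o ∈ Cl ω A)) := by
    intro c' hc'
    refine le_of_tendsto_of_tendsto ((hcont _).const_mul c') (hcont _) ?_
    have h1 : ∀ᶠ t : ℝ in nhdsWithin 1 (Set.Iio 1), ∀ a ∈ A,
        c' < Ex K (fun e => t * w e) (fun ω => F (C ω a)) := by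
      rw [Filter.eventually_all_finset]
      intro a ha
      exact (hcont _).eventually (lt_mem_nhds (hc'.trans_le (hc a ha)))
    have h2 : ∀ᶠ t : ℝ in nhdsWithin 1 (Set.Iio 1), 0 < t :=
      nhdsWithin_le_nhds (lt_mem_nhds one_pos)
    filter_upwards [h1, h2, self_mem_nhdsWithin] with t h3 h4 h5
    refine gen_lt (fun e => ⟨mul_nonneg h4.le (hw e).1, ?_⟩) hF o A c' fun a ha => (h3 a ha).le
    have h6 : t < 1 := h5
    nlinarith [(hw e).1, (hw e).2]
  have hP : 0 ≤ Ex K w (fun ω => ind (o ∈ Cl ω A)) := Ex_nonneg hw fun _ _ => ind_nonneg _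
  have hl : Filter.Tendsto (fun c' : ℝ => c' * Ex K w (fun ω => ind (o ∈ Cl ω A)))
      (nhdsWithin c (Set.Iio c)) (nhds (c * Ex K w (fun ω => ind (o ∈ Cl ω A)))) :=
    ((continuous_id.mul continuous_const).tendsto c).mono_left nhdsWithin_le_nhds
  refine le_of_tendsto hl ?_
  filter_upwards [self_mem_nhdsWithin] with c' hc' using key c' hc'

/-- the form used below -/
theorem gen_target (hw : W01 w) (o : V) (A : Finset V) (T : Set V) {γ : ℝ} (hγ : 0 ≤ γ)
    (hc : ∀ a ∈ A, Ex K w (fun ω => ind (a ∉ Cl ω T)) ≤ γ) :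
    Ex K w (fun ω => ind (o ∈ Cl ω A ∧ o ∉ Cl ω T)) ≤ γ := by
  have hF : Monotone (fun S : Set V => - ind (Disjoint S T)) :=
    fun a b hab => neg_le_neg (ind_mono fun h => h.mono_left hab)
  have h1 := gen (K := K) hw hF o A (-γ) (fun a ha => by
    simp only [← not_mem_Cl_iff]
    rw [Ex_neg]
    exact neg_le_neg (hc a ha))
  simp only [← not_mem_Cl_iff, neg_mul] at h1
  rw [Ex_neg] at h1
  have h2 : Ex K w (fun ω => ind (o ∈ Cl ω A)) ≤ 1 := Ex_le_const hw fun _ _ => ind_le_one _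
  simp only [ind_and, mul_comm (ind (o ∈ Cl _ (A : Set V)))]
  nlinarith

end Vale.Agent.P151
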