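import Vale.Agent.P151.Conn
import Vale.Agent.P151.Contour

namespace Vale.Agent.P151
open Finset
open scoped Classical

variable {V : Type*}

def lev (z : ℤ × ℤ) : ℤ := z.1 + z.2

section
variable (K : Finset (Sym2 V)) (w : Sym2 V → ℝ) (o : V) (site : Sym2 V → ℤ × ℤ)
  (M : ℤ × ℤ → Set V) (δ : ℝ)

noncomputable def past (z : ℤ × ℤ) (ω : Finset (Sym2 V)) : Finset (Sym2 V) :=
  ω.filter (fun e => lev (site e) < lev z ∨ site e = z)

noncomputable def Hc (z y : ℤ × ℤ) (ω : Finset (Sym2 V)) : ℝ :=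
  Ex K w (fun ω' => ind (o ∈ Cl (past site z ω ∪ ω'.filter (fun e => site e = y)) (M y)))

def Good (z : ℤ × ℤ) (ω : Finset (Sym2 V)) : Prop :=
  1 - δ ≤ Hc K w o site M z (z.1 + 1, z.2) ω ∧ 1 - δ ≤ Hc K w o site M z (z.1, z.2 + 1) ω

def Fail (N : ℕ) (z : ℤ × ℤ) (ω : Finset (Sym2 V)) : Prop :=
  (0 ≤ z.1 ∧ 0 ≤ z.2 ∧ lev z ≤ N) ∧ ¬ Good K w o site M δ z ω ∧
    (z = (0, 0) ∨ Good K w o site M δ (z.1 - 1, z.2) ω ∨ Good K w o site M δ (z.1, z.2 - 1) ω)

variable {K w o site M δ}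

lemma Good_congr {z : ℤ × ℤ} {ω ω' : Finset (Sym2 V)} (h : past site z ω = past site z ω') :
    Good K w o site M δ z ω ↔ Good K w o site M δ z ω' := by
  simp only [Good, Hc, h]

lemma past_hyb {z z' : ℤ × ℤ} (h : lev z' ≤ lev z) (hne : z' ≠ z) (ω ω' : Finset (Sym2 V)) :
    past site z' (hyb (fun e => site e = z) ω' ω) = past site z' ω := by
  ext e
  simp only [past, mem_filter, mem_hyb]
  by_cases he : site e = z
  · have : ¬ (lev (site e) < lev z' ∨ site e = z') := by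
      rw [he]; rintro (h1 | h1)
      · omega
      · exact hne h1.symm
    simp [this]
  · simp [he]

lemma child_bound (hw : W01 w) {z y : ℤ × ℤ} (hy : lev y = lev z + 1) {η : ℝ}
    (hchain : ∀ w', W01 w' → (∀ e, site e = z ∨ site e = y → w' e = w e) →
      Ex K w' (fun ω => ind (o ∈ Cl ω (M z) ∧ o ∉ Cl ω (M y))) ≤ η)
    {ω : Finset (Sym2 V)} (hω : ω ⊆ K) :
    Ex K w (fun ω' => ind (o ∈ Cl (past site z (hyb (fun e => site e = z) ω' ω)) (M z)) *
      (1 - Hc K w o site M z y (hyb (fun e => site e = z) ω' ω))) ≤ η := by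
  set ξ := ω.filter (fun e => lev (site e) < lev z) with hξ
  have h1 := hchain (cw w (fun e => ¬ (site e = z ∨ site e = y)) ξ) (cw_W01 hw _ _)
    (fun e he => by simp only [cw, he, not_true, if_false])
  rw [Ex_cw w _ ((filter_subset _ _).trans hω), Ex_hyb K w (fun e => site e = z)] at h1
  refine le_trans (Ex_mono hw fun ω' _ => ?_) h1
  rw [Hc, ← Ex_ind_not, ← Ex_mul_left]
  refine Ex_mono hw fun ω'' _ => ?_
  have h2 : hyb (fun e => ¬ (site e = z ∨ site e = y)) ξ (hyb (fun e => site e = z) ω' ω'') =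
      past site z (hyb (fun e => site e = z) ω' ω) ∪ ω''.filter (fun e => site e = y) := by
    ext e
    simp only [mem_hyb, past, hξ, mem_filter, mem_union]
    by_cases h3 : site e = z
    · have h4 : site e ≠ y := by
        intro h4; rw [← h3, ← h4] at hy; omega
      simp [h3, h4, h3 ▸ h4]
    · by_cases h4 : site e = y
      · have h5 : ¬ lev y < lev z := by omega
        have h6 : y ≠ z := h4 ▸ h3
        simp [h4, h5, h6]
      · simp [h3, h4]
  rw [h2, ← ind_and]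
  exact ind_mono fun h => ⟨Cl_mono subset_union_left subset_rfl h.1, h.2⟩

lemma fail_bound (hw : W01 w) (hδ : 0 < δ) {z : ℤ × ℤ} {η : ℝ}
    (hchain : ∀ y, (y = (z.1 + 1, z.2) ∨ y = (z.1, z.2 + 1)) → ∀ w', W01 w' →
      (∀ e, site e = z ∨ site e = y → w' e = w e) →
      Ex K w' (fun ω => ind (o ∈ Cl ω (M z) ∧ o ∉ Cl ω (M y))) ≤ η)
    {ω : Finset (Sym2 V)} (hω : ω ⊆ K)
    (h : 1 - δ ≤ Ex K w (fun ω' =>
      ind (o ∈ Cl (past site z (hyb (fun e => site e = z) ω' ω)) (M z)))) :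
    Ex K w (fun ω' => ind (¬ Good K w o site M δ z (hyb (fun e => site e = z) ω' ω))) ≤
      δ + 2 * η / δ := by
  have h1 := child_bound (o := o) (M := M) hw (z := z) (y := (z.1 + 1, z.2))
    (by simp only [lev]; ring) (hchain _ (Or.inl rfl)) hω
  have h2 := child_bound (o := o) (M := M) hw (z := z) (y := (z.1, z.2 + 1))
    (by simp only [lev]; ring) (hchain _ (Or.inr rfl)) hω
  have hH : ∀ y ω, Hc K w o site M z y ω ≤ 1 := fun y ω => Ex_le_const hw fun _ _ => ind_le_one _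
  have h3 : δ * Ex K w (fun ω' => ind (¬ Good K w o site M δ z (hyb (fun e => site e = z) ω' ω))) ≤
      δ * (1 - Ex K w (fun ω' =>
        ind (o ∈ Cl (past site z (hyb (fun e => site e = z) ω' ω)) (M z)))) + (η + η) := by
    refine le_trans ?_ (add_le_add_right (add_le_add h1 h2) _)
    rw [← Ex_ind_not, ← Ex_mul_left, ← Ex_mul_left, ← Ex_add, ← Ex_add]
    refine Ex_mono hw fun ω' _ => ?_
    generalize hyb (fun e => site e = z) ω' ω = ρ
    have h4 := hH (z.1 + 1, z.2) ρ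
    have h5 := hH (z.1, z.2 + 1) ρ
    by_cases h6 : o ∈ Cl (past site z ρ) (M z)
    · rw [ind_pos h6, ind_neg (not_not.2 h6)]
      by_cases h7 : Good K w o site M δ z ρ
      · rw [ind_neg (not_not.2 h7)]; linarith
      · rw [ind_pos h7]
        rw [Good, not_and_or, not_le, not_le] at h7
        rcases h7 with h7 | h7 <;> linarith
    · rw [ind_neg h6, ind_pos h6]
      have := mul_le_mul_of_nonneg_left (ind_le_one (¬ Good K w o site M δ z ρ)) hδ.le
      linarith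
  have h4 : δ * (δ + 2 * η / δ) = δ * δ + (η + η) := by field_simp; ring
  refine le_of_mul_le_mul_left ?_ hδ
  rw [h4]
  have := mul_le_mul_of_nonneg_left h hδ.le
  nlinarith

lemma fail_cond (hw : W01 w) (hδ : 0 < δ) {N : ℕ} {η : ℝ} (hη : 0 ≤ η)
    (hchain : ∀ z : ℤ × ℤ, 0 ≤ z.1 → 0 ≤ z.2 → lev z ≤ N →
      ∀ y, (y = (z.1 + 1, z.2) ∨ y = (z.1, z.2 + 1)) → ∀ w', W01 w' →
      (∀ e, site e = z ∨ site e = y → w' e = w e) →
      Ex K w' (fun ω => ind (o ∈ Cl ω (M z) ∧ o ∉ Cl ω (M y))) ≤ η)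
    (hstart : 1 - δ ≤ Ex K w (fun ω => ind (o ∈ Cl (ω.filter (fun e => site e = (0, 0))) (M (0, 0)))))
    (z : ℤ × ℤ) {ω : Finset (Sym2 V)} (hω : ω ⊆ K) :
    Ex K w (fun ω' => ind (Fail K w o site M δ N z (hyb (fun e => site e = z) ω' ω))) ≤
      δ + 2 * η / δ := by
  have hpar : ∀ y ω', lev y + 1 = lev z → (Good K w o site M δ y (hyb (fun e => site e = z) ω' ω) ↔
      Good K w o site M δ y ω) := fun y ω' hy =>
    Good_congr (past_hyb (by omega) (fun h => by rw [h] at hy; omega) _ _)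
  have hl1 : lev (z.1 - 1, z.2) + 1 = lev z := by simp only [lev]; ring
  have hl2 : lev (z.1, z.2 - 1) + 1 = lev z := by simp only [lev]; ring
  by_cases hc : (0 ≤ z.1 ∧ 0 ≤ z.2 ∧ lev z ≤ N) ∧
    (z = (0, 0) ∨ Good K w o site M δ (z.1 - 1, z.2) ω ∨ Good K w o site M δ (z.1, z.2 - 1) ω)
  swap
  · refine Ex_le_const hw fun ω' _ => ?_
    rw [ind_neg]
    · positivity
    · rintro ⟨h1, _, h2⟩
      rw [hpar _ _ hl1, hpar _ _ hl2] at h2
      exact hc ⟨h1, h2⟩
  obtain ⟨⟨h1, h2, h3⟩, h4⟩ := hc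
  refine le_trans (Ex_mono hw fun ω' _ => ind_mono fun h => h.2.1)
    (fail_bound hw hδ (hchain z h1 h2 h3) hω ?_)
  have hsub : ∀ y ω', lev y + 1 = lev z → past site y ω ∪ ω'.filter (fun e => site e = z) ⊆
      past site z (hyb (fun e => site e = z) ω' ω) := by
    intro y ω' hy e he
    simp only [past, mem_filter, mem_union, mem_hyb] at he ⊢
    rcases he with ⟨h5, h6⟩ | ⟨h5, h6⟩
    · have h7 : lev (site e) < lev z := by
        rcases h6 with h6 | h6
        · omega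
        · rw [h6]; omega
      exact ⟨Or.inr ⟨h5, fun h => by rw [h] at h7; omega⟩, Or.inl h7⟩
    · exact ⟨Or.inl ⟨h5, h6⟩, Or.inr h6⟩
  rcases h4 with h4 | h4 | h4
  · refine hstart.trans (Ex_mono hw fun ω' _ => ind_mono fun h => ?_)
    rw [h4]
    refine Cl_mono ?_ subset_rfl h
    intro e he
    simp only [past, mem_filter, mem_hyb] at he ⊢
    exact ⟨Or.inl he, Or.inr he.2⟩
  · have h5 := h4.1
    simp only [Hc, sub_add_cancel, Prod.mk.eta] at h5
    exact h5.trans (Ex_mono hw fun ω' _ => ind_mono fun h => Cl_mono (hsub _ _ hl1) subset_rfl h)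
  · have h5 := h4.2
    simp only [Hc, sub_add_cancel, Prod.mk.eta] at h5
    exact h5.trans (Ex_mono hw fun ω' _ => ind_mono fun h => Cl_mono (hsub _ _ hl2) subset_rfl h)

lemma all_fail (hw : W01 w) {N : ℕ} {ε : ℝ} (hε : 0 ≤ ε)
    (hc : ∀ z : ℤ × ℤ, ∀ ω ⊆ K,
      Ex K w (fun ω' => ind (Fail K w o site M δ N z (hyb (fun e => site e = z) ω' ω))) ≤ ε)
    (F : Finset (ℤ × ℤ)) :
    Ex K w (fun ω => ind (∀ z ∈ F, Fail K w o site M δ N z ω)) ≤ ε ^ F.card := by
  induction F using Finset.induction_on_max_value lev with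
  | empty => simp [ind, Ex_const]
  | insert z F hz hmax ih =>
    rw [card_insert_of_notMem hz, pow_succ', Ex_hyb K w (fun e => site e = z), Ex_comm]
    refine le_trans ?_ (mul_le_mul_of_nonneg_left ih hε)
    rw [← Ex_mul_left]
    refine Ex_mono hw fun ω hω => ?_
    have h1 : ∀ ω', (∀ z' ∈ F, Fail K w o site M δ N z' (hyb (fun e => site e = z) ω' ω)) ↔
        ∀ z' ∈ F, Fail K w o site M δ N z' ω := by
      intro ω'
      refine forall₂_congr fun z' hz' => ?_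
      have h2 := hmax z' hz'
      have h3 : z' ≠ z := fun h => hz (h ▸ hz')
      have h4 : lev (z'.1 - 1, z'.2) < lev z := by simp only [lev] at h2 ⊢; omega
      have h5 : lev (z'.1, z'.2 - 1) < lev z := by simp only [lev] at h2 ⊢; omega
      unfold Fail
      rw [Good_congr (past_hyb h2 h3 ω ω'),
        Good_congr (past_hyb h4.le (fun h => by rw [h] at h4; omega) ω ω'),
        Good_congr (past_hyb h5.le (fun h => by rw [h] at h5; omega) ω ω')]
    simp only [forall_mem_insert, ind_and, h1]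
    rw [Ex_mul_right]
    exact mul_le_mul_of_nonneg_right (hc z ω hω) (ind_nonneg _)

theorem renorm (hw : W01 w) (hδ : 0 < δ) (hδ1 : δ < 1) {N : ℕ} {η : ℝ} (hη : 0 ≤ η)
    (hε : δ + 2 * η / δ ≤ 1 / 2 ^ 16)
    (hchain : ∀ z : ℤ × ℤ, 0 ≤ z.1 → 0 ≤ z.2 → lev z ≤ N →
      ∀ y, (y = (z.1 + 1, z.2) ∨ y = (z.1, z.2 + 1)) → ∀ w', W01 w' →
      (∀ e, site e = z ∨ site e = y → w' e = w e) →
      Ex K w' (fun ω => ind (o ∈ Cl ω (M z) ∧ o ∉ Cl ω (M y))) ≤ η)
    (hstart : 1 - δ ≤ Ex K w (fun ω => ind (o ∈ Cl (ω.filter (fun e => site e = (0, 0))) (M (0, 0))))) :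
    1 / 4 ≤ Ex K w (fun ω => ind (∃ y a, 0 ≤ y.1 ∧ 0 ≤ y.2 ∧ lev y = N + 1 ∧ Conn ω o a ∧
      (a ∈ M y ∨ ∃ b, s(a, b) ∈ K ∧ site s(a, b) = y))) := by
  have hall := all_fail (K := K) (o := o) (site := site) (M := M) (δ := δ) (N := N)
    (ε := 1 / 2 ^ 16) hw (by positivity)
    (fun z ω hω => (fail_cond hw hδ hη hchain hstart z hω).trans hε)
  obtain ⟨ι, I, F, hsum, hF⟩ := contour N
  have h0 := hall {(0, 0)}
  have h1 : ∑ i ∈ I, Ex K w (fun ω => ind (∀ z ∈ F i, Fail K w o site M δ N z ω)) ≤ 1 / 2 :=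
    (Finset.sum_le_sum fun i _ => hall (F i)).trans hsum
  rw [← Ex_sum] at h1
  rw [card_singleton, pow_one] at h0
  have h2 := add_le_add h0 h1
  rw [← Ex_add] at h2
  have h3 : Ex K w (fun ω => ind (¬ ∃ y a, 0 ≤ y.1 ∧ 0 ≤ y.2 ∧ lev y = N + 1 ∧ Conn ω o a ∧
      (a ∈ M y ∨ ∃ b, s(a, b) ∈ K ∧ site s(a, b) = y))) ≤ 1 / 2 ^ 16 + 1 / 2 := by
    refine le_trans (Ex_mono hw fun ω hω => ?_) h2
    have hs : ∀ i ∈ I, 0 ≤ ind (∀ z ∈ F i, Fail K w o site M δ N z ω) := fun _ _ => ind_nonneg _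
    have hs' := Finset.sum_nonneg hs
    by_cases h4 : ∃ y a, 0 ≤ y.1 ∧ 0 ≤ y.2 ∧ lev y = N + 1 ∧ Conn ω o a ∧
      (a ∈ M y ∨ ∃ b, s(a, b) ∈ K ∧ site s(a, b) = y)
    · rw [ind_neg (not_not.2 h4)]; exact add_nonneg (ind_nonneg _) hs'
    rw [ind_pos h4]
    have h5 : ∀ z : ℤ × ℤ, 0 ≤ z.1 → 0 ≤ z.2 → lev z = N → ¬ Good K w o site M δ z ω := by
      intro z hz1 hz2 hz3 hg
      have h6 : Hc K w o site M z (z.1 + 1, z.2) ω ≤ 0 := by
        refine Ex_le_const hw fun ω' hω' => (ind_neg ?_).le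
        rintro ⟨y, hy, h7⟩
        have hl : lev (z.1 + 1, z.2) = N + 1 := by simp only [lev] at hz3 ⊢; omega
        have h8 : y ∈ C ω o := by
          refine Conn.closed (S := C ω o) ?_ h7.symm (self_mem_C _ _)
          intro a b ha hab
          rcases mem_union.1 hab with h9 | h9
          · exact Conn.trans ha (Conn.edge (mem_filter.1 h9).1)
          · exact absurd ⟨(z.1 + 1, z.2), a, by simp only; omega, hz2, hl, ha,
              Or.inr ⟨b, hω' (mem_filter.1 h9).1, (mem_filter.1 h9).2⟩⟩ h4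
        exact h4 ⟨(z.1 + 1, z.2), y, by simp only; omega, hz2, hl, h8, Or.inl hy⟩
      linarith [hg.1]
    by_cases h6 : Good K w o site M δ (0, 0) ω
    swap
    · rw [ind_pos (P := ∀ z ∈ _, _)]
      · linarith
      · intro z hz
        rw [mem_singleton.1 hz]
        exact ⟨⟨le_rfl, le_rfl, by simp [lev]⟩, h6, Or.inl rfl⟩
    have hN : (0:ℤ) < N := by
      by_contra h7
      exact h5 (0, 0) le_rfl le_rfl (by simp only [lev]; omega) h6
    obtain ⟨i, hi, h7⟩ := hF {c | 0 ≤ c.1 ∧ 0 ≤ c.2 ∧ c.1 + c.2 < N ∧ Good K w o site M δ c ω}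
      ⟨le_rfl, le_rfl, by simpa using hN, h6⟩ (fun c hc => ⟨hc.1, hc.2.1, hc.2.2.1⟩)
    have h8 := Finset.single_le_sum hs hi
    rw [ind_pos (P := ∀ z ∈ F i, _)] at h8
    · linarith [ind_nonneg (∀ z ∈ ({(0, 0)} : Finset (ℤ × ℤ)), Fail K w o site M δ N z ω)]
    · intro z hz
      obtain ⟨h9, h10⟩ := h7 z hz
      simp only [Set.mem_ofPred_eq] at h9 h10
      have h11 : 0 ≤ z.1 ∧ 0 ≤ z.2 ∧ lev z ≤ N := by
        simp only [lev]; rcases h10 with h | h <;> omega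
      refine ⟨h11, fun hg => ?_, Or.inr (h10.imp (fun h => h.2.2.2) (fun h => h.2.2.2))⟩
      by_cases h12 : lev z = N
      · exact h5 z h11.1 h11.2.1 h12 hg
      · exact h9 ⟨h11.1, h11.2.1, by simp only [lev] at h11 h12; omega, hg⟩
  rw [Ex_ind_not] at h3
  norm_num at h3 ⊢
  linarith

end
end Vale.Agent.P151
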