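import Vale.Agent.P151.Chain
import Vale.Agent.P151.Renorm

namespace Vale.Agent.P151
open Finset
open scoped Classical

variable {d : ℕ}

def cell (n v : ℤ) : ℤ := (v + 6 * n - 1) / (10 * n)

lemma le_cell {n : ℤ} (hn : 0 < n) (v t : ℤ) : t ≤ cell n v ↔ 10 * n * t - 6 * n < v := by
  rw [cell, Int.le_ediv_iff_mul_le (by omega), ← Int.add_one_le_iff]
  constructor <;> intro h <;> linarith

lemma cell_le {n : ℤ} (hn : 0 < n) (v t : ℤ) : cell n v ≤ t ↔ v ≤ 10 * n * t + 4 * n := by
  rw [cell, ← Int.lt_add_one_iff, Int.ediv_lt_iff_lt_mul (by omega), ← Int.add_one_le_iff]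
  constructor <;> intro h <;> linarith

def site (n : ℤ) (i0 i1 : Fin d) : Sym2 (Fin d → ℤ) → ℤ × ℤ :=
  Sym2.lift ⟨fun a b => (max (cell n (a i0)) (cell n (b i0)), max (cell n (a i1)) (cell n (b i1))),
    fun a b => by simp only [max_comm]⟩

lemma site_mk (n : ℤ) (i0 i1 : Fin d) (a b : Fin d → ℤ) : site n i0 i1 s(a, b) =
    (max (cell n (a i0)) (cell n (b i0)), max (cell n (a i1)) (cell n (b i1))) := rfl

def base (n : ℤ) (i0 i1 : Fin d) (z : ℤ × ℤ) : Fin d → ℤ :=
  fun j => if j = i0 then 10 * n * z.1 else if j = i1 then 10 * n * z.2 else 0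

def org (n : ℤ) (i0 : Fin d) : Fin d → ℤ := fun j => if j = i0 then -(3 * n) else 0

lemma tube_mono {b : Fin d → ℤ} {a : Fin d} {n s s' : ℤ} (h : s ≤ s') {x : Fin d → ℤ}
    (hx : tube b a n s x) : tube b a n s' x := fun i => by
  have := hx i; omega

lemma chain_site {i0 i1 : Fin d} (h01 : i0 ≠ i1) {p ε : ℝ} {m n B : ℤ} {N : ℕ}
    (hm : 0 ≤ m) (hn0 : 0 < n) (hp1 : p ≤ 1) (hC : ChainHyp d p m n ε)
    (hB : 10 * n * N + 14 * n ≤ B)
    (z : ℤ × ℤ) (hz1 : 0 ≤ z.1) (hz2 : 0 ≤ z.2) (hz : lev z ≤ N) (y : ℤ × ℤ)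
    (hy : y = (z.1 + 1, z.2) ∨ y = (z.1, z.2 + 1)) (w' : Sym2 (Fin d → ℤ) → ℝ) (hw' : W01 w')
    (hww : ∀ e, site n i0 i1 e = z ∨ site n i0 i1 e = y → w' e =
      cw (fun _ => p) (fun e => e ∈ edgesIn (box (org n i0) m)) (edgesIn (box (org n i0) m)) e) :
    Ex (edgesIn (box 0 B)) w' (fun ω => ind (org n i0 ∈ Cl ω (box (base n i0 i1 z) (2 * n)) ∧
      org n i0 ∉ Cl ω (box (base n i0 i1 y) (2 * n)))) ≤ ε := by
  have hb1 : 0 ≤ 10 * n * z.1 := by positivity
  have hb2 : 0 ≤ 10 * n * z.2 := by positivity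
  have hb3 : 10 * n * z.1 + 10 * n * z.2 ≤ 10 * n * N := by
    rw [← mul_add]; exact mul_le_mul_of_nonneg_left hz (by positivity)
  have e1 : 10 * n * (z.1 + 1) = 10 * n * z.1 + 10 * n := by ring
  have e2 : 10 * n * (z.2 + 1) = 10 * n * z.2 + 10 * n := by ring
  obtain ⟨a, ha1, ha2⟩ : ∃ a : Fin d,
      (fun j => base n i0 i1 z j + if j = a then 10 * n else 0) = base n i0 i1 y ∧
      ∀ u v, tube (base n i0 i1 z) a n (4 * n) u → tube (base n i0 i1 z) a n (4 * n) v →
        site n i0 i1 s(u, v) = z ∨ site n i0 i1 s(u, v) = y := by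
    rcases hy with rfl | rfl
    · refine ⟨i0, ?_, ?_⟩
      · funext j
        simp only [base]
        split_ifs <;> omega
      · have key : ∀ u, tube (base n i0 i1 z) i0 n (4 * n) u →
            (z.1 ≤ cell n (u i0) ∧ cell n (u i0) ≤ z.1 + 1) ∧ cell n (u i1) = z.2 := by
          intro u hu
          have h0 := hu i0
          have h1 := hu i1
          simp only [base, if_true, h01.symm, if_false] at h0 h1
          refine ⟨⟨(le_cell hn0 _ _).2 (by omega), (cell_le hn0 _ _).2 (by omega)⟩,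
            le_antisymm ((cell_le hn0 _ _).2 (by omega)) ((le_cell hn0 _ _).2 (by omega))⟩
        intro u v hu hv
        have h1 := key u hu
        have h2 := key v hv
        simp only [site_mk, Prod.ext_iff]
        omega
    · refine ⟨i1, ?_, ?_⟩
      · funext j
        simp only [base]
        by_cases h1 : j = i0
        · subst h1; simp [h01]
        · simp only [h1, if_false]
          split_ifs <;> omega
      · have key : ∀ u, tube (base n i0 i1 z) i1 n (4 * n) u →
            (z.2 ≤ cell n (u i1) ∧ cell n (u i1) ≤ z.2 + 1) ∧ cell n (u i0) = z.1 := by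
          intro u hu
          have h0 := hu i0
          have h1 := hu i1
          simp only [base, if_true, h01.symm, h01, if_false] at h0 h1
          refine ⟨⟨(le_cell hn0 _ _).2 (by omega), (cell_le hn0 _ _).2 (by omega)⟩,
            le_antisymm ((cell_le hn0 _ _).2 (by omega)) ((le_cell hn0 _ _).2 (by omega))⟩
        intro u v hu hv
        have h1 := key u hu
        have h2 := key v hv
        simp only [site_mk, Prod.ext_iff]
        omega
  have hbox : ∀ u, tube (base n i0 i1 z) a n (4 * n) u → u ∈ box (0 : Fin d → ℤ) B := by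
    intro u hu
    rw [mem_box]
    intro i
    have := hu i
    simp only [base, Pi.zero_apply] at this ⊢
    split_ifs at this <;> omega
  rw [← ha1]
  refine hC _ _ hw' (adj_of_subset subset_rfl) _ _ a ?_ ?_ ?_
  · intro u v huv hu hv
    refine ⟨mem_edgesIn.2 ⟨hbox u hu, hbox v hv, huv⟩, ?_⟩
    rw [hww _ (ha2 u v hu hv), cw]
    split_ifs with h
    · rw [ind_pos h]; exact hp1
    · exact le_rfl
  · intro u v _ hu hv
    rw [hww _ (ha2 u v (tube_mono (by omega) hu) (tube_mono (by omega) hv)), cw, if_neg]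
    intro h
    have h1 := mem_box.1 (mem_edgesIn.1 h).1 i0
    have h2 := (hu i0).1
    simp only [org, base, if_true] at h1 h2
    omega
  · intro h
    have h2 := (h i0).1
    simp only [org, base, if_true] at h2
    omega

lemma start_site {i0 i1 : Fin d} (h01 : i0 ≠ i1) {p η : ℝ} {m n B : ℤ}
    (hm : 0 ≤ m) (hmn : m ≤ n) (hn0 : 0 < n) (hp0 : 0 ≤ p) (hp1 : p ≤ 1) (hF : Fresh d p m n η)
    (hB : 4 * n ≤ B) :
    1 - η ≤ Ex (edgesIn (box 0 B))
      (cw (fun _ => p) (fun e => e ∈ edgesIn (box (org n i0) m)) (edgesIn (box (org n i0) m)))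
      (fun ω => ind (org n i0 ∈ Cl (ω.filter (fun e => site n i0 i1 e = (0, 0)))
        (box (base n i0 i1 (0, 0)) (2 * n)))) := by
  have hw : W01 (fun _ : Sym2 (Fin d → ℤ) => p) := fun _ => ⟨hp0, hp1⟩
  have h1 : box (org n i0) n ⊆ box (0 : Fin d → ℤ) B := by
    intro u hu
    rw [mem_box] at hu ⊢
    intro i
    have := hu i
    simp only [org, Pi.zero_apply] at this ⊢
    split_ifs at this <;> omega
  have h2 := edgesIn_mono (box_mono (org n i0) hmn)
  have h3 : ∀ e ∈ edgesIn (box (org n i0) n), site n i0 i1 e = (0, 0) := by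
    have key : ∀ u ∈ box (org n i0) n, cell n (u i0) = 0 ∧ cell n (u i1) = 0 := by
      intro u hu
      have h4 := mem_box.1 hu i0
      have h5 := mem_box.1 hu i1
      simp only [org, if_true, h01.symm, if_false] at h4 h5
      exact ⟨le_antisymm ((cell_le hn0 _ _).2 (by omega)) ((le_cell hn0 _ _).2 (by omega)),
        le_antisymm ((cell_le hn0 _ _).2 (by omega)) ((le_cell hn0 _ _).2 (by omega))⟩
    intro e he
    induction e using Sym2.ind with
    | _ a b =>
      have h4 := key a (mem_edgesIn.1 he).1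
      have h5 := key b (mem_edgesIn.1 he).2.1
      simp [site_mk, h4, h5]
  rw [Ex_cw _ _ (h2.trans (edgesIn_mono h1))]
  have h4 := hF.use hp0 hp1 hw (K := edgesIn (box (org n i0) n)) (org n i0) i0 (fun _ => true)
    (fun e he => ⟨he, le_rfl⟩)
  refine h4.trans (le_trans (Ex_mono hw fun ω hω => ind_mono ?_)
    (Ex_mono_K hw (edgesIn_mono h1) ?_))
  · rintro ⟨x, hx, y, hy, h5⟩
    refine ⟨y, ?_, Conn.symm (Conn.trans ((conn_box (self_mem_box _ hm) hx).mono ?_) (h5.mono ?_))⟩
    · rw [mem_coe, mem_box]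
      intro i
      have h6 := hy.1
      have h7 := hy.2 i
      simp only [sgn, if_true, org, base] at h6 h7 ⊢
      by_cases hi : i = i0
      · subst hi; simp only [if_true]; omega
      · simp only [hi, if_false] at h7 ⊢
        split_ifs <;> omega
    · intro e he
      exact mem_filter.2 ⟨mem_hyb.2 (Or.inl ⟨he, he⟩), h3 e (h2 he)⟩
    · intro e he
      refine mem_filter.2 ⟨mem_hyb.2 ?_, h3 e (hω he)⟩
      by_cases h6 : e ∈ edgesIn (box (org n i0) m)
      · exact Or.inl ⟨h6, h6⟩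
      · exact Or.inr ⟨he, h6⟩
  · intro a b hab
    refine ind_mono fun h => Cl_mono ?_ subset_rfl h
    intro e he
    simp only [mem_filter, mem_hyb] at he ⊢
    exact ⟨he.1.imp id fun h => ⟨hab h.1, h.2⟩, he.2⟩

lemma Ex_ge_open {E : Type*} {K Q : Finset E} {w : E → ℝ} (hw : W01 w) (hQ : Q ⊆ K)
    {F : Finset E → ℝ} (hF : ∀ ω, 0 ≤ F ω) :
    (∏ e ∈ Q, w e) * Ex K (cw w (fun e => e ∈ Q) Q) F ≤ Ex K w F := by
  rw [Ex_cw _ _ hQ, Ex_hyb K w (fun e => e ∈ Q) F, ← Ex_open w hQ, ← Ex_mul_right]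
  refine Ex_mono hw fun ω _ => ?_
  by_cases h : Q ⊆ ω
  · rw [ind_pos h, one_mul]
    refine le_of_eq (Ex_congr fun ω' _ => ?_)
    congr 1
    ext e
    simp only [mem_hyb]
    have := @h e
    tauto
  · rw [ind_neg h, zero_mul]
    exact Ex_nonneg hw fun _ _ => hF _

theorem arm_lower (hd : 2 ≤ d) {p : ℝ} {m n : ℤ}
    (hm : 0 ≤ m) (hmn : m ≤ n) (hn0 : 0 < n) (hp0 : 0 ≤ p) (hp1 : p ≤ 1)
    (hF : Fresh d p m n (1 / 2 ^ 17)) (hC : ChainHyp d p m n (1 / 2 ^ 35)) (N : ℕ) :
    p ^ (edgesIn (box (0 : Fin d → ℤ) m)).card / 4 ≤ arm d p N := by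
  set i0 : Fin d := ⟨0, by omega⟩ with hi0
  set i1 : Fin d := ⟨1, by omega⟩ with hi1
  have h01 : i0 ≠ i1 := by simp [hi0, hi1]
  clear_value i0 i1
  have hw : W01 (fun _ : Sym2 (Fin d → ℤ) => p) := fun _ => ⟨hp0, hp1⟩
  have hnN : (N : ℤ) ≤ n * N := le_mul_of_one_le_left (Int.natCast_nonneg _) hn0
  set B : ℤ := 20 * (n * N) + 24 * n with hB
  have h1 := renorm (K := edgesIn (box 0 B)) (o := org n i0) (site := site n i0 i1)
    (M := fun z => box (base n i0 i1 z) (2 * n)) (δ := 1 / 2 ^ 17) (η := 1 / 2 ^ 35)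
    (N := 2 * N + 1)
    (cw_W01 hw (fun e => e ∈ edgesIn (box (org n i0) m)) (edgesIn (box (org n i0) m)))
    (by positivity) (by norm_num) (by positivity) (by norm_num)
    (fun z hz1 hz2 hz y hy w' hw' hww => chain_site h01 hm hn0 hp1 hC
      (by push_cast; linarith) z hz1 hz2 hz y hy w' hw' hww)
    (start_site h01 hm hmn hn0 hp0 hp1 hF (by omega))
  have hsub : ∀ s : ℤ, 3 * n + s ≤ B → edgesIn (box (org n i0) s) ⊆ edgesIn (box 0 B) := by
    intro s hs
    refine edgesIn_mono fun u hu => ?_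
    rw [mem_box] at hu ⊢
    intro i
    have := hu i
    simp only [org, Pi.zero_apply] at this ⊢
    split_ifs at this <;> omega
  have h2 := le_trans (mul_le_mul_of_nonneg_left h1 (Finset.prod_nonneg fun _ _ => hp0))
    (Ex_ge_open hw (hsub m (by omega)) (fun _ => ind_nonneg _))
  rw [Finset.prod_const, card_edgesIn_box, mul_one_div] at h2
  refine h2.trans (le_trans ?_ (arm_shift hp0 hp1 (org n i0) N))
  rw [← Ex_restrict (hsub N (by omega))]
  refine Ex_mono hw fun ω hω => ind_mono ?_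
  rintro ⟨y, a, hy1, hy2, hy3, h3, h4⟩
  refine first_exit (adj_of_subset hω) (self_mem_box _ (Int.natCast_nonneg N)) h3 ?_
  have h5 : 10 * n * y.1 - 6 * n ≤ a i0 ∧ 10 * n * y.2 - 6 * n ≤ a i1 := by
    rcases h4 with h4 | ⟨b, h4, h5⟩
    · have h6 := mem_box.1 h4 i0
      have h7 := mem_box.1 h4 i1
      simp only [base, if_true, h01.symm, if_false] at h6 h7
      omega
    · have h6 := adj_le (mem_edgesIn.1 h4).2.2
      rw [site_mk, Prod.ext_iff] at h5
      simp only at h5
      have h7 := le_cell hn0 (a i0) y.1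
      have h8 := le_cell hn0 (b i0) y.1
      have h9 := le_cell hn0 (a i1) y.2
      have h10 := le_cell hn0 (b i1) y.2
      have h11 := h6 i0
      have h12 := h6 i1
      omega
  simp only [lev] at hy3
  push_cast at hy3
  by_cases h6 : (N : ℤ) + 1 ≤ y.1
  · refine ⟨i0, le_trans ?_ (le_abs_self _)⟩
    have h7 := mul_le_mul_of_nonneg_left h6 hn0.le
    simp only [org, if_true]
    nlinarith
  · refine ⟨i1, le_trans ?_ (le_abs_self _)⟩
    have h7 := mul_le_mul_of_nonneg_left (by omega : (N : ℤ) + 1 ≤ y.2) hn0.le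
    simp only [org, h01.symm, if_false]
    nlinarith

end Vale.Agent.P151
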