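import Vale.Agent.P151.Gen

namespace Vale.Agent.P151
open Finset
open scoped Classical

variable {V : Type*} {K : Finset (Sym2 V)} {w : Sym2 V → ℝ}

def Ins (M : Finset V) (e : Sym2 V) : Prop := ∀ v ∈ e, v ∈ M

lemma Ins_mk {M : Finset V} {a b : V} : Ins M s(a, b) ↔ a ∈ M ∧ b ∈ M := by simp [Ins]

noncomputable def out (M : Finset V) (ω : Finset (Sym2 V)) : Finset (Sym2 V) :=
  ω.filter (fun e => ¬ Ins M e)

noncomputable def contacts (M : Finset V) (o : V) (ω : Finset (Sym2 V)) : Finset V :=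
  M.filter (fun v => Conn (out M ω) o v)

lemma out_hyb (M : Finset V) (ξ ζ : Finset (Sym2 V)) : out M (hyb (Ins M) ξ ζ) = out M ζ := by
  ext e; simp only [out, mem_filter, mem_hyb]; tauto

lemma out_subset_hyb (M : Finset V) (ξ ζ : Finset (Sym2 V)) : out M ζ ⊆ hyb (Ins M) ξ ζ := by
  intro e he; simp only [out, mem_filter] at he; exact mem_hyb.2 (Or.inr he)

lemma contacts_hyb (M : Finset V) (o : V) (ξ ζ : Finset (Sym2 V)) :
    contacts M o (hyb (Ins M) ξ ζ) = contacts M o ζ := by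
  simp only [contacts, out_hyb]

lemma contacts_nonempty {M : Finset V} {o : V} {ω : Finset (Sym2 V)} (h : o ∈ Cl ω M) :
    (contacts M o ω).Nonempty := by
  by_contra hne
  rw [Finset.not_nonempty_iff_eq_empty] at hne
  obtain ⟨y, hy, h1⟩ := h
  have h2 : y ∈ C (out M ω) o := by
    refine Conn.closed (S := C (out M ω) o) ?_ h1.symm (self_mem_C _ _)
    intro a b ha hab
    by_cases h3 : Ins M s(a, b)
    · have : a ∈ contacts M o ω := mem_filter.2 ⟨(Ins_mk.1 h3).1, ha⟩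
      rw [hne] at this
      exact absurd this (notMem_empty _)
    · exact Conn.trans ha (Conn.edge (mem_filter.2 ⟨hab, h3⟩))
  have : y ∈ contacts M o ω := mem_filter.2 ⟨hy, h2⟩
  rw [hne] at this
  exact absurd this (notMem_empty _)

lemma few_contacts (hw : W01 w) {o : V} {M M' : Finset V} {p : ℝ} {Δ k : ℕ}
    (hp0 : 0 ≤ p) (hp1 : p ≤ 1) (hM : M ⊆ M') (ho : o ∉ M')
    (hadj : ∀ a b, s(a, b) ∈ K → a ∈ M → b ∈ M')
    (hdeg : ∀ v, (K.filter (fun e => v ∈ e)).card ≤ Δ)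
    (hwp : ∀ a b, s(a, b) ∈ K → a ∈ M' → b ∈ M' → w s(a, b) = p) :
    Ex K w (fun ω => ind ((contacts M' o ω).Nonempty ∧ (contacts M' o ω).card ≤ k)) *
      (1 - p) ^ (Δ * k) ≤
      Ex K w (fun ω => ind (o ∈ Cl ω M')) - Ex K w (fun ω => ind (o ∈ Cl ω M)) := by
  rw [← Ex_sub, Ex_hyb K w (Ins M') (fun ω => ind (o ∈ Cl ω M') - ind (o ∈ Cl ω M)), Ex_comm,
    ← Ex_mul_right]
  refine Ex_mono hw fun ζ hζ => ?_
  have hnn : ∀ ω : Finset (Sym2 V), 0 ≤ ind (o ∈ Cl ω M') - ind (o ∈ Cl ω M) := fun ω =>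
    sub_nonneg.2 (ind_mono fun h => Cl_mono subset_rfl (coe_subset.2 hM) h)
  by_cases h : (contacts M' o ζ).Nonempty ∧ (contacts M' o ζ).card ≤ k
  swap
  · rw [ind_neg h, zero_mul]
    exact Ex_nonneg hw fun _ _ => hnn _
  rw [ind_pos h, one_mul]
  set Q := K.filter (fun e => Ins M' e ∧ ∃ v ∈ contacts M' o ζ, v ∈ e) with hQ
  have hQK : Q ⊆ K := filter_subset _ _
  have hQc : Q.card ≤ Δ * k := by
    have h1 : Q ⊆ (contacts M' o ζ).biUnion (fun v => K.filter (fun e => v ∈ e)) := by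
      intro e he
      obtain ⟨h2, _, v, h3, h4⟩ := mem_filter.1 he
      exact mem_biUnion.2 ⟨v, h3, mem_filter.2 ⟨h2, h4⟩⟩
    calc Q.card ≤ _ := card_le_card h1
      _ ≤ (contacts M' o ζ).card * Δ := card_biUnion_le_card_mul _ _ _ fun v _ => hdeg v
      _ ≤ k * Δ := Nat.mul_le_mul_right _ h.2
      _ = Δ * k := Nat.mul_comm _ _
  have hprod : ∏ e ∈ Q, (1 - w e) = (1 - p) ^ Q.card := by
    rw [← Finset.prod_const]
    refine Finset.prod_congr rfl fun e he => ?_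
    obtain ⟨h2, h3, _⟩ := mem_filter.1 he
    induction e using Sym2.ind with
    | _ a b => rw [hwp a b h2 (Ins_mk.1 h3).1 (Ins_mk.1 h3).2]
  calc (1 - p) ^ (Δ * k) ≤ (1 - p) ^ Q.card :=
        pow_le_pow_of_le_one (by linarith) (by linarith) hQc
    _ = Ex K w (fun ξ => ind (Disjoint Q ξ)) := by rw [Ex_closed w hQK, hprod]
    _ ≤ _ := by
      refine Ex_mono hw fun ξ hξ => ?_
      by_cases hd : Disjoint Q ξ
      swap
      · rw [ind_neg hd]; exact hnn _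
      obtain ⟨x, hx⟩ := h.1
      have h1 : o ∈ Cl (hyb (Ins M') ξ ζ) M' :=
        ⟨x, (mem_filter.1 hx).1, ((mem_filter.1 hx).2.mono (out_subset_hyb _ _ _)).symm⟩
      have h2 : o ∉ Cl (hyb (Ins M') ξ ζ) M := by
        rintro ⟨y, hy, h3⟩
        have h4 : y ∈ C (out M' ζ) o := by
          refine Conn.closed (S := C (out M' ζ) o) ?_ h3.symm (self_mem_C _ _)
          intro a b ha hab
          rcases mem_hyb.1 hab with h5 | h5
          · exact absurd h5.1 (disjoint_left.1 hd (mem_filter.2 ⟨hξ h5.1, h5.2, a,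
              mem_filter.2 ⟨(Ins_mk.1 h5.2).1, ha⟩, Sym2.mem_mk_left a b⟩))
          · exact Conn.trans ha (Conn.edge (mem_filter.2 h5))
        rcases Relation.ReflTransGen.cases_tail h4 with h5 | ⟨a, _, h5⟩
        · exact ho (h5 ▸ hM hy)
        · obtain ⟨h6, h7⟩ := mem_filter.1 h5
          exact h7 (Ins_mk.2 ⟨hadj y a (Sym2.eq_swap ▸ hζ h6) hy, hM hy⟩)
      rw [ind_pos hd, ind_pos h1, ind_neg h2]; norm_num

lemma none_open {ι : Type*} (TE : ι → Finset (Sym2 V)) (q : ℝ) (𝒯 : Finset ι)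
    (hq : ∀ t ∈ 𝒯, Ex K w (fun ω => ind (TE t ⊆ ω)) = q)
    (hd : ∀ t ∈ 𝒯, ∀ t' ∈ 𝒯, ∀ e, e ∈ TE t → e ∈ TE t' → t = t') :
    Ex K w (fun ω => ind (∀ t ∈ 𝒯, ¬ TE t ⊆ ω)) = (1 - q) ^ 𝒯.card := by
  induction 𝒯 using Finset.induction_on with
  | empty => simp [ind, Ex_const]
  | insert t 𝒯 ht ih =>
    simp only [forall_mem_insert, ind_and]
    rw [Ex_indep K w (fun e => e ∈ TE t), Ex_ind_not, hq t (mem_insert_self _ _),
      ih (fun t' h => hq t' (mem_insert_of_mem h))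
        (fun a ha b hb => hd a (mem_insert_of_mem ha) b (mem_insert_of_mem hb)),
      card_insert_of_notMem ht, pow_succ']
    · intro ω ω'
      apply ind_congr
      apply not_congr
      constructor
      · intro h e he
        have := mem_hyb.1 (h he)
        tauto
      · intro h e he
        exact mem_hyb.2 (Or.inl ⟨h he, he⟩)
    · intro ω ω'
      apply ind_congr
      refine forall₂_congr fun t' ht' => not_congr ?_
      have hne : ∀ e ∈ TE t', e ∉ TE t := fun e he he' =>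
        ht (hd t (mem_insert_self _ _) t' (mem_insert_of_mem ht') e he' he ▸ ht')
      constructor
      · intro h e he
        have := mem_hyb.1 (h he)
        have := hne e he
        tauto
      · intro h e he
        exact mem_hyb.2 (Or.inr ⟨h he, hne e he⟩)

lemma open_bad (hw : W01 w) {A : Sym2 V → Prop} {Q : Finset (Sym2 V)} (hQ : ∀ e ∈ Q, A e)
    {G : Finset (Sym2 V) → Prop} (hG : ∀ ω ω', ω ⊆ ω' → G ω → G ω') {γ η q : ℝ} (hγ : 0 < γ)
    (hq : Ex K w (fun ω => ind (Q ⊆ ω)) = q) (hη : Ex K w (fun ω => ind (¬ G ω)) ≤ η) :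
    Ex K w (fun ξ => ind (Q ⊆ ξ ∧ γ < Ex K w (fun ζ => ind (¬ G (hyb A ξ ζ))))) ≤ q * η / γ := by
  rw [le_div_iff₀ hγ, ← Ex_mul_right]
  have h1 := harris (K := K) hw (f := fun ω => ind (Q ⊆ ω)) (g := fun ω => - ind (¬ G ω))
    (fun a b hab => ind_mono fun h => h.trans hab)
    (fun a b hab => neg_le_neg (ind_mono fun h h' => h (hG a b hab h')))
  simp only [mul_neg] at h1
  rw [Ex_neg, Ex_neg, hq, Ex_hyb K w A (fun ω => ind (Q ⊆ ω) * ind (¬ G ω))] at h1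
  have hq0 : 0 ≤ q := hq ▸ Ex_nonneg hw fun _ _ => ind_nonneg _
  have h2 := mul_le_mul_of_nonneg_left hη hq0
  refine le_trans (Ex_mono hw fun ξ _ => ?_) (le_trans (by linarith) h2)
  by_cases h : Q ⊆ ξ ∧ γ < Ex K w (fun ζ => ind (¬ G (hyb A ξ ζ)))
  · rw [ind_pos h, one_mul]
    refine h.2.le.trans (Ex_mono hw fun ζ _ => ?_)
    rw [ind_pos (P := Q ⊆ _) (fun e he => mem_hyb.2 (Or.inl ⟨h.1 he, hQ e he⟩)), one_mul]
  · rw [ind_neg h, zero_mul]
    exact Ex_nonneg hw fun _ _ => mul_nonneg (ind_nonneg _) (ind_nonneg _)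

lemma many_contacts (hw : W01 w) {o : V} {M : Finset V} (T : Set V) {ι : Type*} (tile : V → ι)
    (TE : ι → Finset (Sym2 V)) {q η γ : ℝ} {ℓ k : ℕ} (hγ : 0 < γ) (hq0 : 0 ≤ q) (hq1 : q ≤ 1)
    (hη : 0 ≤ η)
    (htile : ∀ x y, tile x = tile y → x ∈ M → y ∈ M)
    (hfib : ∀ (X : Finset V) t, (X.filter (fun x => tile x = t)).card ≤ ℓ)
    (hq : ∀ x ∈ M, Ex K w (fun ω => ind (TE (tile x) ⊆ ω)) = q)
    (hTE : ∀ t a b, s(a, b) ∈ TE t → tile a = t)
    (hconn : ∀ x y, tile y = tile x → Conn (TE (tile x)) x y)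
    (hfresh : ∀ x ∈ M, Ex K w (fun ω => ind (¬ ∃ y, tile y = tile x ∧ y ∈ Cl ω T)) ≤ η) :
    Ex K w (fun ω => ind (k * ℓ < (contacts M o ω).card ∧ o ∉ Cl ω T)) ≤
      γ + ((1 - q) ^ k + k * (q * η / γ)) := by
  set A : Finset (Sym2 V) → Finset V := fun ξ => M.filter (fun a => TE (tile a) ⊆ ξ ∧
    Ex K w (fun ζ => ind (a ∉ Cl (hyb (Ins M) ξ ζ) T)) ≤ γ) with hA
  have hIns : ∀ x ∈ M, ∀ e ∈ TE (tile x), Ins M e := by
    intro x hx e he
    induction e using Sym2.ind with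
    | _ a b =>
      exact Ins_mk.2 ⟨htile x a (hTE _ a b he).symm hx,
        htile x b (hTE _ b a (Sym2.eq_swap ▸ he)).symm hx⟩
  rw [Ex_hyb K w (Ins M)]
  have step1 : Ex K w (fun ξ => Ex K w (fun ζ => ind (k * ℓ < (contacts M o (hyb (Ins M) ξ ζ)).card ∧
      o ∉ Cl (hyb (Ins M) ξ ζ) T))) ≤
      Ex K w (fun ξ => γ + Ex K w (fun ζ => ind (k * ℓ < (contacts M o ζ).card ∧
        ∀ x ∈ contacts M o ζ, x ∉ A ξ))) := by
    refine Ex_mono hw fun ξ hξ => ?_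
    have h1 := gen_target (K := K) (cw_W01 hw (Ins M) ξ) o (A ξ) T hγ.le (fun a ha => by
      rw [Ex_cw w (Ins M) hξ]
      exact (mem_filter.1 ha).2.2)
    rw [Ex_cw w (Ins M) hξ] at h1
    refine le_trans ?_ (add_le_add_left h1 _)
    rw [← Ex_add]
    refine Ex_mono hw fun ζ _ => ?_
    rw [contacts_hyb]
    by_cases h2 : k * ℓ < (contacts M o ζ).card ∧ o ∉ Cl (hyb (Ins M) ξ ζ) T
    swap
    · rw [ind_neg h2]; exact add_nonneg (ind_nonneg _) (ind_nonneg _)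
    rw [ind_pos h2]
    by_cases h3 : ∀ x ∈ contacts M o ζ, x ∉ A ξ
    · rw [ind_pos (P := _ ∧ _) ⟨h2.1, h3⟩]
      linarith [ind_nonneg (o ∈ Cl (hyb (Ins M) ξ ζ) (A ξ) ∧ o ∉ Cl (hyb (Ins M) ξ ζ) T)]
    · push Not at h3
      obtain ⟨x, hx, hx'⟩ := h3
      rw [ind_pos (P := o ∈ Cl (hyb (Ins M) ξ ζ) (A ξ) ∧ _)
        ⟨⟨x, hx', ((mem_filter.1 hx).2.mono (out_subset_hyb _ _ _)).symm⟩, h2.2⟩]
      linarith [ind_nonneg (k * ℓ < (contacts M o ζ).card ∧ ∀ x ∈ contacts M o ζ, x ∉ A ξ)]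
  refine step1.trans ?_
  rw [Ex_add, Ex_const, Ex_comm]
  refine add_le_add_right ?_ _
  refine Ex_le_const hw fun ζ _ => ?_
  by_cases hX : k * ℓ < (contacts M o ζ).card
  swap
  · refine Ex_le_const hw fun ξ _ => ?_
    rw [ind_neg (fun h => hX h.1)]
    have : 0 ≤ 1 - q := by linarith
    positivity
  have hXM : contacts M o ζ ⊆ M := filter_subset _ _
  generalize contacts M o ζ = X at hX hXM
  have hcard : k ≤ (X.image tile).card := by
    have h1 := Finset.card_le_mul_card_image (f := tile) X ℓ (fun t _ => hfib X t)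
    by_contra h2
    push Not at h2
    have h3 := Nat.mul_le_mul_left ℓ h2.le
    rw [Nat.mul_comm k] at hX
    omega
  obtain ⟨𝒯, h𝒯, hk⟩ := Finset.exists_subset_card_eq hcard
  have hx : ∀ t ∈ 𝒯, ∃ x ∈ X, tile x = t := fun t ht => mem_image.1 (h𝒯 ht)
  have h1 := none_open (K := K) (w := w) TE q 𝒯 (fun t ht => by
    obtain ⟨x, hx1, hx2⟩ := hx t ht
    rw [← hx2]; exact hq x (hXM hx1)) (fun t _ t' _ e he he' => by
      induction e using Sym2.ind with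
      | _ a b => rw [← hTE t a b he, ← hTE t' a b he'])
  have h2 : ∑ t ∈ 𝒯, Ex K w (fun ξ => ind (TE t ⊆ ξ ∧ γ < Ex K w (fun ζ =>
      ind (¬ ∃ y, tile y = t ∧ y ∈ Cl (hyb (Ins M) ξ ζ) T)))) ≤ k * (q * η / γ) := by
    rw [← hk, ← nsmul_eq_mul]
    refine Finset.sum_le_card_nsmul _ _ _ fun t ht => ?_
    obtain ⟨x, hx1, rfl⟩ := hx t ht
    exact open_bad hw (hIns x (hXM hx1)) (G := fun ω => ∃ y, tile y = tile x ∧ y ∈ Cl ω T)
      (fun ω ω' h ⟨y, h3, h4⟩ => ⟨y, h3, Cl_mono h subset_rfl h4⟩) hγ (hq x (hXM hx1))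
      (hfresh x (hXM hx1))
  rw [← Ex_sum] at h2
  rw [← hk, ← h1, hk]
  refine le_trans ?_ (add_le_add_right h2 _)
  rw [← Ex_add]
  refine Ex_mono hw fun ξ _ => ?_
  have hs : ∀ t ∈ 𝒯, 0 ≤ ind (TE t ⊆ ξ ∧ γ < Ex K w (fun ζ =>
      ind (¬ ∃ y, tile y = t ∧ y ∈ Cl (hyb (Ins M) ξ ζ) T))) := fun _ _ => ind_nonneg _
  have hs' := Finset.sum_nonneg hs
  by_cases h3 : ∀ x ∈ X, x ∉ A ξ
  swap
  · rw [ind_neg (fun h => h3 h.2)]; exact add_nonneg (ind_nonneg _) hs'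
  rw [ind_pos (P := _ ∧ _) ⟨hX, h3⟩]
  by_cases h4 : ∀ t ∈ 𝒯, ¬ TE t ⊆ ξ
  · rw [ind_pos h4]; linarith
  push Not at h4
  obtain ⟨t, ht, h5⟩ := h4
  have h6 := Finset.single_le_sum hs ht
  obtain ⟨x, hx1, rfl⟩ := hx t ht
  have h7 : γ < Ex K w (fun ζ => ind (x ∉ Cl (hyb (Ins M) ξ ζ) T)) := by
    by_contra h7
    exact h3 x hx1 (mem_filter.2 ⟨hXM hx1, h5, not_lt.1 h7⟩)
  rw [ind_pos (P := _ ∧ _) ⟨h5, h7.trans_le (Ex_mono hw fun ζ _ => ind_mono ?_)⟩] at h6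
  · linarith [ind_nonneg (∀ t ∈ 𝒯, ¬ TE t ⊆ ξ)]
  · rintro h8 ⟨y, h9, h10⟩
    refine h8 (Cl_step h10 ((hconn x y h9).mono ?_).symm)
    exact fun e he => mem_hyb.2 (Or.inl ⟨h5 he, hIns x (hXM hx1) e he⟩)

theorem target (hw : W01 w) {o : V} {M : ℕ → Finset V} {J : ℕ} (T : Set V) {ι : Type*}
    (tile : V → ι) (TE : ι → Finset (Sym2 V)) {p η γ : ℝ} {Δ ℓ k r : ℕ} (hJ : 0 < J)
    (hγ : 0 < γ) (hp0 : 0 ≤ p) (hp1 : p < 1) (hη : 0 ≤ η)
    (hM : ∀ j, M j ⊆ M (j + 1)) (ho : o ∉ M J)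
    (hadj : ∀ j a b, s(a, b) ∈ K → a ∈ M j → b ∈ M (j + 1))
    (hdeg : ∀ v, (K.filter (fun e => v ∈ e)).card ≤ Δ)
    (hwp : ∀ a b, s(a, b) ∈ K → a ∈ M J → b ∈ M J → w s(a, b) = p)
    (htile : ∀ j x y, tile x = tile y → x ∈ M j → y ∈ M j)
    (hfib : ∀ (X : Finset V) t, (X.filter (fun x => tile x = t)).card ≤ ℓ)
    (hTEK : ∀ x ∈ M J, TE (tile x) ⊆ K) (hr : ∀ t, (TE t).card = r)
    (hTE : ∀ t a b, s(a, b) ∈ TE t → tile a = t)
    (hconn : ∀ x y, tile y = tile x → Conn (TE (tile x)) x y)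
    (hfresh : ∀ x ∈ M J, Ex K w (fun ω => ind (¬ ∃ y, tile y = tile x ∧ y ∈ Cl ω T)) ≤ η) :
    Ex K w (fun ω => ind (o ∈ Cl ω (M 0) ∧ o ∉ Cl ω T)) ≤
      1 / (J * (1 - p) ^ (Δ * (k * ℓ))) + (γ + ((1 - p ^ r) ^ k + k * (p ^ r * η / γ))) := by
  have hmono : Monotone M := monotone_nat_of_le_succ hM
  have hpow : 0 < (1 - p) ^ (Δ * (k * ℓ)) := pow_pos (by linarith) _
  have hJ' : (0 : ℝ) < J := by exact_mod_cast hJ
  set f : ℕ → ℝ := fun j => Ex K w (fun ω => ind ((contacts (M (j + 1)) o ω).Nonempty ∧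
    (contacts (M (j + 1)) o ω).card ≤ k * ℓ)) with hf
  have h1 : ∑ j ∈ range J, f j * (1 - p) ^ (Δ * (k * ℓ)) ≤ 1 := by
    have h2 : ∑ j ∈ range J, f j * (1 - p) ^ (Δ * (k * ℓ)) ≤ ∑ j ∈ range J,
        (Ex K w (fun ω => ind (o ∈ Cl ω (M (j + 1)))) - Ex K w (fun ω => ind (o ∈ Cl ω (M j)))) := by
      refine Finset.sum_le_sum fun j hj => ?_
      have hj' : M (j + 1) ⊆ M J := hmono (mem_range.1 hj)
      exact few_contacts hw hp0 hp1.le (hM j) (fun h => ho (hj' h)) (hadj j) hdeg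
        (fun a b h ha hb => hwp a b h (hj' ha) (hj' hb))
    rw [Finset.sum_range_sub (fun j => Ex K w (fun ω => ind (o ∈ Cl ω (M j))))] at h2
    have h3 : Ex K w (fun ω => ind (o ∈ Cl ω (M J))) ≤ 1 := Ex_le_const hw fun _ _ => ind_le_one _
    have h4 : 0 ≤ Ex K w (fun ω => ind (o ∈ Cl ω (M 0))) := Ex_nonneg hw fun _ _ => ind_nonneg _
    linarith
  have h2 : ∃ j ∈ range J, f j * (1 - p) ^ (Δ * (k * ℓ)) ≤ 1 / J := by
    apply Finset.exists_le_of_sum_le ⟨0, mem_range.2 hJ⟩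
    rw [Finset.sum_const, card_range, nsmul_eq_mul, mul_one_div_cancel hJ'.ne']
    exact h1
  obtain ⟨j, hj, h3⟩ := h2
  have hj' : M (j + 1) ⊆ M J := hmono (mem_range.1 hj)
  have h4 : f j ≤ 1 / (J * (1 - p) ^ (Δ * (k * ℓ))) := by
    rw [← div_div, le_div_iff₀ hpow]; exact h3
  have h5 := many_contacts (K := K) (o := o) (M := M (j + 1)) (k := k) hw T tile TE hγ
    (pow_nonneg hp0 r) (pow_le_one₀ hp0 hp1.le) hη (htile _) hfib (fun x hx => by
      rw [Ex_open w (hTEK x (hj' hx)), ← hr (tile x), ← Finset.prod_const]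
      refine Finset.prod_congr rfl fun e he => ?_
      induction e using Sym2.ind with
      | _ a b =>
        exact hwp a b (hTEK x (hj' hx) he) (htile _ x a (hTE _ a b he).symm (hj' hx))
          (htile _ x b (hTE _ b a (Sym2.eq_swap ▸ he)).symm (hj' hx)))
    hTE hconn (fun x hx => hfresh x (hj' hx))
  refine le_trans ?_ (add_le_add h4 h5)
  rw [hf, ← Ex_add]
  refine Ex_mono hw fun ω _ => ?_
  by_cases h6 : o ∈ Cl ω (M 0) ∧ o ∉ Cl ω T
  swap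
  · rw [ind_neg h6]; exact add_nonneg (ind_nonneg _) (ind_nonneg _)
  rw [ind_pos h6]
  have h7 : (contacts (M (j + 1)) o ω).Nonempty :=
    contacts_nonempty (Cl_mono subset_rfl (coe_subset.2 (hmono (Nat.zero_le _))) h6.1)
  by_cases h8 : (contacts (M (j + 1)) o ω).card ≤ k * ℓ
  · rw [ind_pos (P := _ ∧ _) ⟨h7, h8⟩]
    exact le_add_of_nonneg_right (ind_nonneg _)
  · rw [ind_pos (P := _ ∧ o ∉ _) ⟨not_le.1 h8, h6.2⟩]
    exact le_add_of_nonneg_left (ind_nonneg _)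

end Vale.Agent.P151
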