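import Vale.Agent.P151.Defs
import Vale.Agent.P151.Target

namespace Vale.Agent.P151
open Finset
open scoped Classical

noncomputable def res {E : Type*} (Q ω : Finset E) : Finset E := ω.filter (fun e => e ∈ Q)

lemma mem_res {E : Type*} {Q ω : Finset E} {e : E} : e ∈ res Q ω ↔ e ∈ ω ∧ e ∈ Q := by simp [res]

lemma res_subset {E : Type*} (Q ω : Finset E) : res Q ω ⊆ ω := fun _ h => (mem_res.1 h).1

lemma Ex_restrict {E : Type*} {K K' : Finset E} (h : K' ⊆ K) (w : E → ℝ) (f : Finset E → ℝ) :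
    Ex K w (fun ω => f (res K' ω)) = Ex K' w f := by
  unfold res
  have key : ∀ D : Finset E, Ex (K' ∪ D) w (fun ω => f (ω.filter (fun e => e ∈ K'))) =
      Ex K' w f := by
    intro D
    induction D using Finset.induction_on with
    | empty =>
      rw [union_empty]
      exact Ex_congr fun ω hω => by rw [filter_true_of_mem fun x hx => hω hx]
    | insert e D he ih =>
      rw [union_insert]
      by_cases h1 : e ∈ K' ∪ D
      · rwa [insert_eq_of_mem h1]
      · have h2 : e ∉ K' := fun h2 => h1 (mem_union_left _ h2)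
        rw [Ex_insert h1]
        simp only [filter_insert, if_neg h2, ih]; ring
  have := key K
  rwa [union_eq_right.2 h] at this

lemma Ex_zero {E : Type*} (K : Finset E) (f : Finset E → ℝ) : Ex K (fun _ => 0) f = f ∅ := by
  induction K using Finset.induction_on with
  | empty => exact Ex_empty _ _
  | insert e K he ih => rw [Ex_insert he, ih]; ring

lemma harris_prod {E ι : Type*} {K : Finset E} {w : E → ℝ} (hw : W01 w) (s : Finset ι)
    (A : ι → Finset E → Prop) (hA : ∀ i ω ω', ω ⊆ ω' → A i ω → A i ω') :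
    ∏ i ∈ s, Ex K w (fun ω => ind (¬ A i ω)) ≤ Ex K w (fun ω => ind (∀ i ∈ s, ¬ A i ω)) := by
  induction s using Finset.induction_on with
  | empty => simp [ind, Ex_const]
  | insert i s hi ih =>
    rw [prod_insert hi]
    have h1 := harris (K := K) hw (f := fun ω => - ind (¬ A i ω))
      (g := fun ω => - ind (∀ i ∈ s, ¬ A i ω))
      (fun a b hab => neg_le_neg (ind_mono fun h h' => h (hA i a b hab h')))
      (fun a b hab => neg_le_neg (ind_mono fun h j hj h' => h j hj (hA j a b hab h')))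
    simp only [neg_mul_neg, Ex_neg] at h1
    simp only [forall_mem_insert, ind_and]
    exact le_trans (mul_le_mul_of_nonneg_left ih (Ex_nonneg hw fun _ _ => ind_nonneg _)) h1

lemma Conn.map {V V' : Type*} {ω : Finset (Sym2 V)} {x y : V} (φ : V → V') (h : Conn ω x y) :
    Conn (ω.image (Sym2.map φ)) (φ x) (φ y) := by
  induction h with
  | refl => exact Conn.refl _ _
  | tail _ h2 ih => exact ih.trans (Conn.edge (mem_image.2 ⟨_, h2, rfl⟩))

lemma transfer {V : Type*} {φ : V → V} (hφ : Function.Injective φ) {K0 K : Finset (Sym2 V)}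
    {w : Sym2 V → ℝ} {p : ℝ} (hp0 : 0 ≤ p) (hp1 : p ≤ 1) (hw : W01 w)
    (hK : ∀ e ∈ K0, Sym2.map φ e ∈ K ∧ p ≤ w (Sym2.map φ e))
    {A0 A : Finset (Sym2 V) → Prop} (hA : ∀ ω ω', ω ⊆ ω' → A ω → A ω')
    (h : ∀ ω ⊆ K0, A0 ω → A (ω.image (Sym2.map φ))) :
    Ex K0 (fun _ => p) (fun ω => ind (A0 ω)) ≤ Ex K w (fun ω => ind (A ω)) := by
  have hm : Monotone (fun ω => ind (A ω)) := fun a b hab => ind_mono (hA a b hab)
  have hp : W01 (fun _ : Sym2 V => p) := fun _ => ⟨hp0, hp1⟩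
  calc _ ≤ Ex K0 (fun _ => p) (fun ω => ind (A (ω.image (Sym2.map φ)))) :=
        Ex_mono hp fun ω hω => ind_mono (h ω hω)
    _ = Ex (K0.image (Sym2.map φ)) (fun _ => p) (fun ω => ind (A ω)) :=
        (Ex_image (Sym2.map.injective hφ) K0 (fun _ => p) (fun ω => ind (A ω))).symm
    _ ≤ Ex (K0.image (Sym2.map φ)) w (fun ω => ind (A ω)) := by
        refine Ex_mono_w hp hw (fun e he => ?_) hm
        obtain ⟨e', he', rfl⟩ := mem_image.1 he
        exact (hK e' he').2
    _ ≤ _ := by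
        refine Ex_mono_K hw (fun e he => ?_) hm
        obtain ⟨e', he', rfl⟩ := mem_image.1 he
        exact (hK e' he').1

variable {d : ℕ}

lemma adj_iff {x y : Fin d → ℤ} : (lattice d).Adj x y ↔ ∑ i, |x i - y i| = 1 := Iff.rfl

lemma adj_le {x y : Fin d → ℤ} (h : (lattice d).Adj x y) (i : Fin d) :
    x i - 1 ≤ y i ∧ y i ≤ x i + 1 := by
  have h1 : |x i - y i| ≤ ∑ i, |x i - y i| :=
    Finset.single_le_sum (f := fun i => |x i - y i|) (fun _ _ => abs_nonneg _) (mem_univ i)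
  rw [adj_iff.1 h, abs_le] at h1
  omega

lemma adj_update (x : Fin d → ℤ) (i : Fin d) {t : ℤ} (ht : |x i - t| = 1) :
    (lattice d).Adj x (Function.update x i t) := by
  rw [adj_iff, Finset.sum_eq_single i]
  · simpa using ht
  · intro j _ hj; simp [Function.update_of_ne hj]
  · simp

noncomputable def edgesIn (S : Finset (Fin d → ℤ)) : Finset (Sym2 (Fin d → ℤ)) :=
  S.sym2.filter (fun e => e ∈ (lattice d).edgeSet)

lemma mem_edgesIn {S : Finset (Fin d → ℤ)} {a b : Fin d → ℤ} :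
    s(a, b) ∈ edgesIn S ↔ a ∈ S ∧ b ∈ S ∧ (lattice d).Adj a b := by
  simp [edgesIn, and_assoc]

lemma edgesIn_mono {S S' : Finset (Fin d → ℤ)} (h : S ⊆ S') : edgesIn S ⊆ edgesIn S' := by
  intro e he
  induction e using Sym2.ind with
  | _ a b => rw [mem_edgesIn] at he ⊢; exact ⟨h he.1, h he.2.1, he.2.2⟩

noncomputable def box (c : Fin d → ℤ) (n : ℤ) : Finset (Fin d → ℤ) :=
  Icc (fun i => c i - n) (fun i => c i + n)

lemma mem_box {c x : Fin d → ℤ} {n : ℤ} : x ∈ box c n ↔ ∀ i, c i - n ≤ x i ∧ x i ≤ c i + n := by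
  simp only [box, mem_Icc, Pi.le_def, forall_and]

lemma card_box (c : Fin d → ℤ) (n : ℤ) : (box c n).card = (2 * n + 1).toNat ^ d := by
  rw [box, Pi.card_Icc]
  simp only [Int.card_Icc]
  rw [Finset.prod_congr rfl (g := fun _ => (2 * n + 1).toNat) fun i _ => by congr 1; ring]
  simp

lemma conn_box {c : Fin d → ℤ} {n : ℤ} {x y : Fin d → ℤ} (hx : x ∈ box c n) (hy : y ∈ box c n) :
    Conn (edgesIn (box c n)) x y := by
  generalize hk : (∑ i, |x i - y i|).toNat = k
  induction k generalizing x with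
  | zero =>
    have h1 : ∑ i, |x i - y i| = 0 :=
      le_antisymm (by omega) (Finset.sum_nonneg fun _ _ => abs_nonneg _)
    rw [Finset.sum_eq_zero_iff_of_nonneg fun _ _ => abs_nonneg _] at h1
    have : x = y := funext fun i => sub_eq_zero.1 (abs_eq_zero.1 (h1 i (mem_univ i)))
    rw [this]; exact Conn.refl _ _
  | succ k ih =>
    have : ∃ i, x i ≠ y i := by
      by_contra h
      push Not at h
      simp [h] at hk
    obtain ⟨i, hi⟩ := this
    have h1 := mem_box.1 hx i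
    have h2 := mem_box.1 hy i
    have key : ∀ t : ℤ, |x i - t| = 1 → |t - y i| + 1 = |x i - y i| → c i - n ≤ t → t ≤ c i + n →
        Conn (edgesIn (box c n)) x y := by
      intro t ht1 ht2 ht3 ht4
      have hx' : Function.update x i t ∈ box c n := by
        rw [mem_box]; intro j
        by_cases hj : j = i
        · rw [hj]; simp [ht3, ht4]
        · rw [Function.update_of_ne hj]; exact mem_box.1 hx j
      refine (Conn.edge (mem_edgesIn.2 ⟨hx, hx', adj_update x i ht1⟩)).trans (ih hx' ?_)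
      have h3 : ∑ j, |Function.update x i t j - y j| + 1 = ∑ j, |x j - y j| := by
        rw [← Finset.add_sum_erase _ _ (mem_univ i), ← Finset.add_sum_erase _ _ (mem_univ i),
          Finset.sum_congr (s₂ := univ.erase i) (g := fun j => |x j - y j|) rfl fun j hj => by
            rw [Function.update_of_ne (mem_erase.1 hj).1]]
        simp only [Function.update_self]; linarith
      omega
    rcases lt_or_gt_of_ne hi with h | h
    · refine key (x i + 1) (by simp) ?_ (by omega) (by omega)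
      rw [abs_of_nonpos (by omega), abs_of_nonpos (by omega)]; ring
    · refine key (x i - 1) (by simp) ?_ (by omega) (by omega)
      rw [abs_of_nonneg (by omega), abs_of_nonneg (by omega)]; ring

lemma deg_le {K : Finset (Sym2 (Fin d → ℤ))} (hK : ∀ a b, s(a, b) ∈ K → (lattice d).Adj a b)
    (v : Fin d → ℤ) : (K.filter (fun e => v ∈ e)).card ≤ 3 ^ d := by
  have h1 : K.filter (fun e => v ∈ e) ⊆ (box v 1).image (fun y => s(v, y)) := by
    intro e he
    obtain ⟨h1, h2⟩ := mem_filter.1 he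
    obtain ⟨y, rfl⟩ := Sym2.mem_iff_exists.1 h2
    exact mem_image.2 ⟨y, mem_box.2 (adj_le (hK v y h1)), rfl⟩
  refine (card_le_card h1).trans (card_image_le.trans ?_)
  rw [card_box]; rfl

lemma first_exit {ω : Finset (Sym2 (Fin d → ℤ))} (hω : ∀ a b, s(a, b) ∈ ω → (lattice d).Adj a b)
    {c x y : Fin d → ℤ} {n : ℤ} (hx : x ∈ box c n) (h : Conn ω x y) (hy : ∃ i, n ≤ |y i - c i|) :
    ∃ z, (∃ i, |z i - c i| = n) ∧ Conn (res (edgesIn (box c n)) ω) x z := by
  by_contra hne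
  push Not at hne
  have h1 : y ∈ {v | v ∈ box c n ∧ Conn (res (edgesIn (box c n)) ω) x v} := by
    refine Conn.closed ?_ h ⟨hx, Conn.refl _ _⟩
    rintro a b ⟨ha, ha'⟩ hab
    have hb : b ∈ box c n := by
      rw [mem_box]; intro i
      have h2 := mem_box.1 ha i
      have h3 := adj_le (hω a b hab) i
      have h4 : |a i - c i| ≠ n := fun h4 => hne a ⟨i, h4⟩ ha'
      rcases abs_cases (a i - c i) with h5 | h5 <;> omega
    exact ⟨hb, ha'.trans (Conn.edge (mem_res.2 ⟨hab, mem_edgesIn.2 ⟨ha, hb, hω a b hab⟩⟩))⟩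
  obtain ⟨i, hi⟩ := hy
  refine hne y ⟨i, ?_⟩ h1.2
  have h2 := mem_box.1 h1.1 i
  rcases abs_cases (y i - c i) with h5 | h5 <;> omega

def sgn (b : Bool) : ℤ := if b then 1 else -1

lemma sgn_cases (b : Bool) : sgn b = 1 ∨ sgn b = -1 := by cases b <;> simp [sgn]

/-- lattice symmetry -/
def sym (π : Equiv.Perm (Fin d)) (σ : Fin d → ℤ) (c : Fin d → ℤ) (x : Fin d → ℤ) : Fin d → ℤ :=
  fun j => c j + σ j * x (π j)

lemma sym_inj (π : Equiv.Perm (Fin d)) {σ : Fin d → ℤ} (hσ : ∀ j, σ j = 1 ∨ σ j = -1)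
    (c : Fin d → ℤ) : Function.Injective (sym π σ c) := by
  intro x y h
  funext i
  have := congrFun h (π.symm i)
  simp only [sym, Equiv.apply_symm_apply] at this
  rcases hσ (π.symm i) with h1 | h1 <;> rw [h1] at this <;> omega

lemma sym_adj (π : Equiv.Perm (Fin d)) {σ : Fin d → ℤ} (hσ : ∀ j, σ j = 1 ∨ σ j = -1)
    (c : Fin d → ℤ) {x y : Fin d → ℤ} (h : (lattice d).Adj x y) :
    (lattice d).Adj (sym π σ c x) (sym π σ c y) := by
  rw [adj_iff] at h ⊢
  rw [← h, ← Equiv.sum_comp π (fun i => |x i - y i|)]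
  refine Finset.sum_congr rfl fun j _ => ?_
  simp only [sym]
  rcases hσ j with h1 | h1 <;> rw [h1]
  · congr 1; ring
  · rw [← abs_neg]; congr 1; ring

lemma sym_box (π : Equiv.Perm (Fin d)) {σ : Fin d → ℤ} (hσ : ∀ j, σ j = 1 ∨ σ j = -1)
    (c : Fin d → ℤ) {x : Fin d → ℤ} {n : ℤ} (h : x ∈ box 0 n) : sym π σ c x ∈ box c n := by
  rw [mem_box] at h ⊢
  intro j
  have := h (π j)
  simp only [sym, Pi.zero_apply] at this ⊢
  rcases hσ j with h1 | h1 <;> rw [h1] <;> omega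

lemma sym_edge (π : Equiv.Perm (Fin d)) {σ : Fin d → ℤ} (hσ : ∀ j, σ j = 1 ∨ σ j = -1)
    (c : Fin d → ℤ) {n : ℤ} {e : Sym2 (Fin d → ℤ)} (h : e ∈ edgesIn (box 0 n)) :
    Sym2.map (sym π σ c) e ∈ edgesIn (box c n) := by
  induction e using Sym2.ind with
  | _ a b =>
    rw [mem_edgesIn] at h
    exact mem_edgesIn.2 ⟨sym_box π hσ c h.1, sym_box π hσ c h.2.1, sym_adj π hσ c h.2.2⟩

lemma shift_edge (c t : Fin d → ℤ) {n : ℤ} {e : Sym2 (Fin d → ℤ)} (h : e ∈ edgesIn (box c n)) :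
    Sym2.map (fun x => x + t) e ∈ edgesIn (box (c + t) n) := by
  have hb : ∀ a ∈ box c n, a + t ∈ box (c + t) n := by
    intro a ha
    rw [mem_box] at ha ⊢
    intro i; have := ha i; simp only [Pi.add_apply]; omega
  induction e using Sym2.ind with
  | _ a b =>
    rw [mem_edgesIn] at h
    refine mem_edgesIn.2 ⟨hb a h.1, hb b h.2.1, ?_⟩
    have := h.2.2
    rw [adj_iff] at this ⊢
    simpa using this

lemma card_edgesIn_box (c : Fin d → ℤ) (n : ℤ) :
    (edgesIn (box c n)).card = (edgesIn (box (0 : Fin d → ℤ) n)).card := by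
  have key : ∀ c t : Fin d → ℤ, (edgesIn (box c n)).card ≤ (edgesIn (box (c + t) n)).card :=
    fun c t => card_le_card_of_injOn (Sym2.map (fun x => x + t)) (fun e he => shift_edge c t he)
      (Sym2.map.injective (add_left_injective t)).injOn
  have h1 := key c (-c)
  have h2 := key 0 c
  rw [add_neg_cancel] at h1
  rw [zero_add] at h2
  omega

def face (c : Fin d → ℤ) (n : ℤ) (i : Fin d) (σ : Fin d → Bool) : Set (Fin d → ℤ) :=
  {y | sgn (σ i) * (y i - c i) = n ∧ ∀ j, 0 ≤ sgn (σ j) * (y j - c j) ∧ sgn (σ j) * (y j - c j) ≤ n}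

def Hit (m n : ℤ) (c : Fin d → ℤ) (i : Fin d) (σ : Fin d → Bool)
    (ω : Finset (Sym2 (Fin d → ℤ))) : Prop :=
  ∃ x ∈ box c m, ∃ y ∈ face c n i σ, Conn ω x y

/-- the finite-size estimate -/
def Fresh (d : ℕ) (p : ℝ) (m n : ℤ) (η : ℝ) : Prop :=
  ∃ (i : Fin d) (σ : Fin d → Bool),
    1 - η ≤ Ex (edgesIn (box 0 n)) (fun _ => p) (fun ω => ind (Hit m n 0 i σ ω))

lemma Fresh.use {p η : ℝ} {m n : ℤ} (h : Fresh d p m n η) (hp0 : 0 ≤ p) (hp1 : p ≤ 1)
    {K : Finset (Sym2 (Fin d → ℤ))} {w : Sym2 (Fin d → ℤ) → ℝ} (hw : W01 w) (c : Fin d → ℤ)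
    (i : Fin d) (σ : Fin d → Bool) (hK : ∀ e ∈ edgesIn (box c n), e ∈ K ∧ p ≤ w e) :
    1 - η ≤ Ex K w (fun ω => ind (Hit m n c i σ ω)) := by
  obtain ⟨i0, σ0, h⟩ := h
  set π := Equiv.swap i i0 with hπ
  set τ : Fin d → ℤ := fun j => sgn (σ j) * sgn (σ0 (π j)) with hτ
  have hτ' : ∀ j, τ j = 1 ∨ τ j = -1 := by
    intro j
    rcases sgn_cases (σ j) with h1 | h1 <;> rcases sgn_cases (σ0 (π j)) with h2 | h2 <;>
      simp [hτ, h1, h2]
  refine h.trans (transfer (sym_inj π hτ' c) hp0 hp1 hw (fun e he => hK _ (sym_edge π hτ' c he))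
    ?_ ?_)
  · rintro ω ω' hω ⟨x, hx, y, hy, h1⟩
    exact ⟨x, hx, y, hy, h1.mono hω⟩
  · rintro ω _ ⟨x, hx, y, hy, h1⟩
    refine ⟨_, sym_box π hτ' c hx, sym π τ c y, ?_, h1.map _⟩
    have key : ∀ j, sgn (σ j) * (sym π τ c y j - c j) = sgn (σ0 (π j)) * (y (π j) - 0) := by
      intro j
      simp only [sym, hτ]
      rcases sgn_cases (σ j) with h1 | h1 <;> rw [h1] <;> ring
    refine ⟨?_, fun j => ?_⟩
    · rw [key, hπ, Equiv.swap_apply_left]; exact hy.1
    · rw [key]; exact hy.2 _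

/-- one-arm probability in a finite box -/
noncomputable def arm (d : ℕ) (p : ℝ) (n : ℤ) : ℝ :=
  Ex (edgesIn (box (0 : Fin d → ℤ) n)) (fun _ => p)
    (fun ω => ind (∃ y, (∃ i, |y i| = n) ∧ Conn ω 0 y))

lemma arm_shift {p : ℝ} (hp0 : 0 ≤ p) (hp1 : p ≤ 1) (c : Fin d → ℤ) (n : ℤ) :
    Ex (edgesIn (box c n)) (fun _ => p) (fun ω => ind (∃ y, (∃ i, |y i - c i| = n) ∧ Conn ω c y)) ≤
      arm d p n := by
  refine transfer (φ := fun x => x + -c) (add_left_injective _) hp0 hp1 (fun _ => ⟨hp0, hp1⟩)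
    (fun e he => ⟨by simpa using shift_edge c (-c) he, le_rfl⟩) ?_ ?_
  · rintro ω ω' hω ⟨y, hy, h1⟩
    exact ⟨y, hy, h1.mono hω⟩
  · rintro ω _ ⟨y, ⟨i, hi⟩, h1⟩
    refine ⟨y + -c, ⟨i, by simpa [sub_eq_add_neg] using hi⟩, ?_⟩
    simpa using h1.map (fun x => x + -c)

end Vale.Agent.P151
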