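import Vale.Agent.P151.Geometry

namespace Vale.Agent.P151
open Finset Filter Topology
open scoped Classical

variable {d : ℕ}

lemma Fresh.mono {p η η' : ℝ} {m n : ℤ} (h : Fresh d p m n η) (hη : η ≤ η') : Fresh d p m n η' := by
  obtain ⟨i, σ, h⟩ := h
  exact ⟨i, σ, by linarith⟩

lemma ChainHyp.mono {p ε ε' : ℝ} {m n : ℤ} (h : ChainHyp d p m n ε) (hε : ε ≤ ε') :
    ChainHyp d p m n ε' := fun K w hw hK b o a h1 h2 h3 => (h K w hw hK b o a h1 h2 h3).trans hε

/-- positivity of the one-arm probability, uniformly in the box -/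
def Perc (d : ℕ) (p : ℝ) : Prop := ∃ c > 0, ∀ n : ℕ, c ≤ arm d p n

lemma near_one (hd : 2 ≤ d) : ∃ p', 0 < p' ∧ p' < 1 ∧ Perc d p' := by
  have h1 : ∀ (r : ℕ) (a ε : ℝ), 0 < ε → ∀ᶠ p in 𝓝[<] (1:ℝ), a * (1 - p ^ r) < ε := by
    intro r a ε hε
    have : Continuous fun p : ℝ => a * (1 - p ^ r) := by fun_prop
    have h2 := this.tendsto 1
    simp only [one_pow, sub_self, mul_zero] at h2
    exact nhdsWithin_le_nhds (h2.eventually (gt_mem_nhds hε))
  have h2 : ∀ᶠ p in 𝓝[<] (1:ℝ), 0 < p := nhdsWithin_le_nhds (lt_mem_nhds one_pos)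
  obtain ⟨p, ⟨⟨h3, h4⟩, h5⟩, h6⟩ := ((((h1 (edgesIn (box (0 : Fin d → ℤ) 1)).card 1 (1 / 2 ^ 17)
    (by positivity)).and (h1 (edgesIn (box (0 : Fin d → ℤ) 3)).card 3 (1 / 2 ^ 35)
    (by positivity))).and h2).and self_mem_nhdsWithin).exists
  have h7 : p < 1 := h6
  refine ⟨p, h5, h7, _, ?_, arm_lower hd le_rfl zero_le_one one_pos h5.le h7.le
    ((fresh_one (by omega) h5.le h7.le).mono (by linarith)) ((chainHyp_one h5.le).mono h4.le)⟩
  positivity

lemma one_sub_pow_le {q : ℝ} (hq0 : 0 ≤ q) (hq1 : q ≤ 1) (k : ℕ) : (1 - q) ^ k * (1 + k * q) ≤ 1 := by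
  have h1 : 1 + k * q ≤ (1 + q) ^ k := one_add_mul_le_pow (by linarith) k
  have h2 : 0 ≤ (1 - q) ^ k := pow_nonneg (by linarith) k
  calc _ ≤ (1 - q) ^ k * (1 + q) ^ k := mul_le_mul_of_nonneg_left h1 h2
    _ = (1 - q ^ 2) ^ k := by rw [← mul_pow]; congr 1; ring
    _ ≤ 1 := pow_le_one₀ (by nlinarith) (by nlinarith)

lemma below (hd : 2 ≤ d) {p : ℝ} (hp0 : 0 ≤ p) (hp1 : p < 1) (h : Perc d p) :
    ∃ p', 0 < p' ∧ p' < p ∧ Perc d p' := by
  obtain ⟨c, hc, h⟩ := h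
  have hp : 0 < p := by
    rcases hp0.eq_or_lt with h1 | h1
    · exfalso
      have h2 := h 1
      rw [← h1, arm, Ex_zero, ind_neg] at h2
      · linarith
      · rintro ⟨y, ⟨i, hi⟩, h3⟩
        have h4 : y ∈ ({0} : Set (Fin d → ℤ)) :=
          Conn.closed (S := {0}) (fun a b _ h4 => absurd h4 (notMem_empty _)) h3 rfl
        rw [h4] at hi
        simp at hi
    · exact h1
  set ε : ℝ := 1 / 2 ^ 35 / (10 + d) with hε
  have hε0 : 0 < ε := by positivity
  set γ : ℝ := ε / 4 with hγ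
  have hγ0 : 0 < γ := by positivity
  set L : ℝ := 8 / ε with hL
  have hL0 : 0 < L := by positivity
  set η : ℝ := min (1 / 2 ^ 17) (γ * ε / (8 * (L + 1))) with hη
  have hη0 : 0 < η := lt_min (by positivity) (by positivity)
  obtain ⟨m, hm⟩ := zero_one hp0 hp1.le hc (η := (η / 2) ^ (d * 2 ^ d)) (by positivity) h
  set r := (edgesIn (box (0 : Fin d → ℤ) m)).card with hr
  have hq0 : 0 < p ^ r := pow_pos hp r
  have hq1 : p ^ r ≤ 1 := pow_le_one₀ hp0 hp1.le
  set k := ⌈L / p ^ r⌉₊ with hk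
  have hk1 : L ≤ k * p ^ r := by
    rw [← div_le_iff₀ hq0]; exact Nat.le_ceil _
  have hk2 : k * p ^ r ≤ L + 1 := by
    have h1 : (k : ℝ) < L / p ^ r + 1 := Nat.ceil_lt_add_one (by positivity)
    have h2 := mul_le_mul_of_nonneg_right h1.le hq0.le
    rw [add_mul, div_mul_cancel₀ _ hq0.ne'] at h2
    linarith
  set u := (1 - p) ^ (3 ^ d * (k * (2 * (m:ℤ) + 1).toNat ^ d)) with hu
  have hu0 : 0 < u := pow_pos (by linarith) _
  obtain ⟨J, hJ⟩ := exists_nat_gt (8 / (ε * u))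
  have hJ0 : (0:ℝ) < J := lt_trans (by positivity) hJ
  have hJ1 : 0 < J := by exact_mod_cast hJ0
  have hΦ : Phi d p η γ m J k < ε := by
    have h1 : 1 / (J * u) ≤ ε / 8 := by
      rw [div_lt_iff₀ (by positivity)] at hJ
      rw [div_le_div_iff₀ (by positivity) (by norm_num)]
      nlinarith
    have h2 : (1 - p ^ r) ^ k ≤ ε / 8 := by
      have h3 := one_sub_pow_le hq0.le hq1 k
      have h4 : 0 ≤ (1 - p ^ r) ^ k := pow_nonneg (by linarith) k
      have h5 : (1 - p ^ r) ^ k * L ≤ 1 := by nlinarith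
      rw [hL, ← le_div_iff₀ (by positivity)] at h5
      refine h5.trans (le_of_eq ?_)
      field_simp
    have h3 : k * (p ^ r * η / γ) ≤ ε / 8 := by
      have h4 : η ≤ γ * ε / (8 * (L + 1)) := min_le_right _ _
      have h5 : k * (p ^ r * η / γ) = (k * p ^ r) * η / γ := by ring
      rw [h5, div_le_iff₀ hγ0]
      calc _ ≤ (L + 1) * (γ * ε / (8 * (L + 1))) := mul_le_mul hk2 h4 hη0.le (by positivity)
        _ = _ := by field_simp
    unfold Phi
    rw [← hr, ← hu]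
    linarith
  set R : ℕ := (2 * m + 1) * J + m with hR
  set n : ℕ := (11 + d) * R + 2 * m + 1 with hn
  have hmn : m ≤ n := by omega
  obtain ⟨i, σ, hF⟩ := sqrt_trick (by omega) hp0 hp1.le (by positivity : 0 ≤ η / 2)
    (by exact_mod_cast hmn) (hm n hmn)
  have e1 : ∀ᶠ t in 𝓝[<] p, 1 - η < Ex (edgesIn (box (0 : Fin d → ℤ) n)) (fun _ => t)
      (fun ω => ind (Hit m n 0 i σ ω)) :=
    nhdsWithin_le_nhds (((Ex_continuous _ (fun t _ => t) (fun _ => continuous_id) _).tendsto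
      p).eventually (lt_mem_nhds (by linarith)))
  have e2 : ∀ᶠ t in 𝓝[<] p, Phi d t η γ m J k < ε := by
    have : ContinuousAt (fun t => Phi d t η γ m J k) p := by
      unfold Phi
      refine ContinuousAt.add (ContinuousAt.div continuousAt_const (by fun_prop) ?_) (by fun_prop)
      rw [← hu]; positivity
    exact nhdsWithin_le_nhds (this.eventually (gt_mem_nhds hΦ))
  have e3 : ∀ᶠ t in 𝓝[<] p, 0 < t := nhdsWithin_le_nhds (lt_mem_nhds hp)
  obtain ⟨t, ⟨⟨h1, h2⟩, h3⟩, h4⟩ := (((e1.and e2).and e3).and self_mem_nhdsWithin).exists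
  have h5 : t < p := h4
  have h6 : Fresh d t m n η := ⟨i, σ, h1.le⟩
  have h7 : ChainHyp d t m n (1 / 2 ^ 35) := by
    intro K w hw hK b o a hU hwp ho
    refine (chain (k := k) (R := R) hw hK (Int.natCast_nonneg m) (by rw [hR]; push_cast; ring)
      (by rw [hn]; push_cast; linarith) hJ1 hγ0 h3.le (h5.trans hp1) hη0.le h6 b o a hU hwp
      ho).trans ?_
    have : (10 + d : ℝ) * ε = 1 / 2 ^ 35 := by rw [hε]; field_simp
    rw [← this]
    exact mul_le_mul_of_nonneg_left h2.le (by positivity)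
  refine ⟨t, h3, h5, _, ?_, arm_lower hd (Int.natCast_nonneg m) (by exact_mod_cast hmn)
    (by exact_mod_cast (by omega : 0 < n)) h3.le (h5.trans hp1).le
    (h6.mono (min_le_left _ _)) h7⟩
  positivity

theorem finite_main (hd : 2 ≤ d) {p : ℝ} (hp0 : 0 ≤ p) (hp1 : p ≤ 1) (h : Perc d p) :
    ∃ p', 0 < p' ∧ p' < p ∧ Perc d p' := by
  rcases hp1.eq_or_lt with h1 | h1
  · rw [h1]; exact near_one hd
  · exact below hd hp0 h1 h

end Vale.Agent.P151
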