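import Vale.Agent.P151.Fresh

namespace Vale.Agent.P151
open Finset
open scoped Classical

variable {d : ℕ}

lemma le_tl {m : ℤ} (hm : 0 ≤ m) (x t : ℤ) : t ≤ (x + m) / (2 * m + 1) ↔ (2 * m + 1) * t - m ≤ x := by
  rw [Int.le_ediv_iff_mul_le (by omega)]
  constructor <;> intro h <;> linarith

lemma tl_le {m : ℤ} (hm : 0 ≤ m) (x t : ℤ) : (x + m) / (2 * m + 1) ≤ t ↔ x ≤ (2 * m + 1) * t + m := by
  rw [← Int.lt_add_one_iff, Int.ediv_lt_iff_lt_mul (by omega), ← Int.add_one_le_iff]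
  constructor <;> intro h <;> linarith

def tl (m : ℤ) (x : Fin d → ℤ) : Fin d → ℤ := fun i => (x i + m) / (2 * m + 1)

def ctr (m : ℤ) (t : Fin d → ℤ) : Fin d → ℤ := fun i => (2 * m + 1) * t i

lemma tl_eq_iff {m : ℤ} (hm : 0 ≤ m) {x t : Fin d → ℤ} : tl m x = t ↔ x ∈ box (ctr m t) m := by
  rw [mem_box, funext_iff]
  refine forall_congr' fun i => ?_
  simp only [tl, ctr]
  rw [← le_tl hm, ← tl_le hm]
  omega

noncomputable def level (m : ℤ) (lo hi : Fin d → ℤ) (j : ℕ) : Finset (Fin d → ℤ) :=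
  Icc (fun i => (2 * m + 1) * (tl m lo i - j) - m) (fun i => (2 * m + 1) * (tl m hi i + j) + m)

lemma mem_level {m : ℤ} {lo hi x : Fin d → ℤ} {j : ℕ} : x ∈ level m lo hi j ↔
    ∀ i, (2 * m + 1) * (tl m lo i - j) - m ≤ x i ∧ x i ≤ (2 * m + 1) * (tl m hi i + j) + m := by
  simp only [level, mem_Icc, Pi.le_def, forall_and]

lemma mem_level' {m : ℤ} (hm : 0 ≤ m) {lo hi x : Fin d → ℤ} {j : ℕ} : x ∈ level m lo hi j ↔
    ∀ i, tl m lo i - j ≤ tl m x i ∧ tl m x i ≤ tl m hi i + j := by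
  rw [mem_level]
  refine forall_congr' fun i => ?_
  rw [← le_tl hm, ← tl_le hm]; rfl

noncomputable def Phi (d : ℕ) (p η γ : ℝ) (m : ℤ) (J k : ℕ) : ℝ :=
  1 / (J * (1 - p) ^ (3 ^ d * (k * (2 * m + 1).toNat ^ d))) +
    (γ + ((1 - p ^ (edgesIn (box (0 : Fin d → ℤ) m)).card) ^ k +
      k * (p ^ (edgesIn (box (0 : Fin d → ℤ) m)).card * η / γ)))

lemma step {K : Finset (Sym2 (Fin d → ℤ))} {w : Sym2 (Fin d → ℤ) → ℝ} (hw : W01 w)
    (hK : ∀ a b, s(a, b) ∈ K → (lattice d).Adj a b) {p η γ : ℝ} {m n R : ℤ} {J k : ℕ}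
    (hm : 0 ≤ m) (hmn : m ≤ n) (hR : R = (2 * m + 1) * J + m) (hJ : 0 < J) (hγ : 0 < γ)
    (hp0 : 0 ≤ p) (hp1 : p < 1) (hη : 0 ≤ η) (hF : Fresh d p m n η) (lo hi o : Fin d → ℤ)
    (T : Set (Fin d → ℤ))
    (hU : ∀ a b, (lattice d).Adj a b → (∀ i, lo i - R - n ≤ a i ∧ a i ≤ hi i + R + n) →
      (∀ i, lo i - R - n ≤ b i ∧ b i ≤ hi i + R + n) → s(a, b) ∈ K ∧ p ≤ w s(a, b))
    (hwp : ∀ a b, s(a, b) ∈ K → (∀ i, lo i - R - m ≤ a i ∧ a i ≤ hi i + R + m) →
      (∀ i, lo i - R - m ≤ b i ∧ b i ≤ hi i + R + m) → w s(a, b) = p)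
    (ho : ¬ ∀ i, lo i - R - m ≤ o i ∧ o i ≤ hi i + R + m)
    (hT : ∀ c : Fin d → ℤ, (∀ i, lo i - R ≤ c i ∧ c i ≤ hi i + R) → ∃ i σ, face c n i σ ⊆ T) :
    Ex K w (fun ω => ind (o ∈ Cl ω {x | ∀ i, lo i ≤ x i ∧ x i ≤ hi i} ∧ o ∉ Cl ω T)) ≤
      Phi d p η γ m J k := by
  have hlo : ∀ i, lo i ≤ (2 * m + 1) * tl m lo i + m := fun i => (tl_le hm _ _).1 le_rfl
  have hhi : ∀ i, (2 * m + 1) * tl m hi i - m ≤ hi i := fun i => (le_tl hm _ _).1 le_rfl
  have hc : ∀ x ∈ level m lo hi J, ∀ i, lo i - R ≤ ctr m (tl m x) i ∧ ctr m (tl m x) i ≤ hi i + R := by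
    intro x hx i
    have h1 := (mem_level' hm).1 hx i
    have h2 := mul_le_mul_of_nonneg_left h1.1 (by omega : 0 ≤ 2 * m + 1)
    have h3 := mul_le_mul_of_nonneg_left h1.2 (by omega : 0 ≤ 2 * m + 1)
    have h4 := hlo i
    have h5 := hhi i
    simp only [ctr]
    constructor <;> linarith
  have hMJ : ∀ x ∈ level m lo hi J, ∀ i, lo i - R - m ≤ x i ∧ x i ≤ hi i + R + m := by
    intro x hx i
    have h1 := mem_box.1 ((tl_eq_iff hm).1 (rfl : tl m x = tl m x)) i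
    have h2 := hc x hx i
    omega
  have hbox : ∀ x ∈ level m lo hi J, ∀ e ∈ edgesIn (box (ctr m (tl m x)) n), e ∈ K ∧ p ≤ w e := by
    intro x hx e he
    induction e using Sym2.ind with
    | _ a b =>
      obtain ⟨h1, h2, h3⟩ := mem_edgesIn.1 he
      refine hU a b h3 (fun i => ?_) (fun i => ?_)
      · have := mem_box.1 h1 i; have := hc x hx i; omega
      · have := mem_box.1 h2 i; have := hc x hx i; omega
  have h := target (K := K) (o := o) (M := level m lo hi) (J := J) hw T (tl m)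
    (fun t => edgesIn (box (ctr m t) m)) (p := p) (η := η) (γ := γ) (Δ := 3 ^ d)
    (ℓ := (2 * m + 1).toNat ^ d) (k := k) (r := (edgesIn (box (0 : Fin d → ℤ) m)).card)
    hJ hγ hp0 hp1 hη
    (fun j x hx => by
      rw [mem_level' hm] at hx ⊢
      intro i; have := hx i; push_cast; omega)
    (fun h => ho (hMJ o h))
    (fun j a b hab ha => by
      rw [mem_level] at ha ⊢
      intro i
      have h1 := ha i
      have h2 := adj_le (hK a b hab) i
      push_cast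
      constructor <;> nlinarith)
    (fun v => by
      refine le_of_eq_of_le ?_ (deg_le hK v)
      congr 1
      ext e; simp only [mem_filter])
    (fun a b hab ha hb => hwp a b hab (hMJ a ha) (hMJ b hb))
    (fun j x y hxy hx => by
      rw [mem_level' hm] at hx ⊢
      rw [← hxy]; exact hx)
    (fun X t => by
      rw [← card_box (ctr m t) m]
      refine card_le_card fun x hx => (tl_eq_iff hm).1 ?_
      simp only [mem_filter] at hx
      exact hx.2)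
    (fun x hx e he => (hbox x hx e (edgesIn_mono (box_mono _ hmn) he)).1)
    (fun t => card_edgesIn_box _ _)
    (fun t a b hab => (tl_eq_iff hm).2 (mem_edgesIn.1 hab).1)
    (fun x y hxy => conn_box ((tl_eq_iff hm).1 rfl) ((tl_eq_iff hm).1 hxy))
    (fun x hx => by
      obtain ⟨i, σ, h1⟩ := hT _ (hc x hx)
      have h2 := hF.use hp0 hp1.le hw (ctr m (tl m x)) i σ (hbox x hx)
      rw [Ex_ind_not]
      have h3 : Ex K w (fun ω => ind (Hit m n (ctr m (tl m x)) i σ ω)) ≤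
          Ex K w (fun ω => ind (∃ y, tl m y = tl m x ∧ y ∈ Cl ω T)) := by
        refine Ex_mono hw fun ω _ => ind_mono ?_
        rintro ⟨y, hy, z, hz, h4⟩
        exact ⟨y, (tl_eq_iff hm).2 hy, z, h1 hz, h4.symm⟩
      linarith)
  refine le_trans (Ex_mono hw fun ω _ => ind_mono fun h1 => ⟨Cl_mono subset_rfl ?_ h1.1, h1.2⟩) h
  intro x hx
  rw [mem_coe, mem_level' hm]
  intro i
  have h2 := hx i
  simp only [Nat.cast_zero, sub_zero, add_zero, tl]
  exact ⟨Int.ediv_le_ediv (by omega) (by omega), Int.ediv_le_ediv (by omega) (by omega)⟩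

end Vale.Agent.P151
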